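import Vale.Agent.P256.Cubic.Setup

/-!
The certificate: at every point of the open polar cone the tangent functional, multiplied by `τ`,
is a sum of squares plus the polar quadric times a sum of squares.
-/

namespace Vale.Agent.P256.Cubic

open MvPolynomial Finset Conical Matrix

variable {n k : ℕ}

/-- The quadratic form of a matrix. -/
def qf (M : Matrix (Fin n) (Fin n) ℝ) (y : Fin n → ℝ) : ℝ := y ⬝ᵥ (M *ᵥ y)

theorem qf_line (M : Matrix (Fin n) (Fin n) ℝ) (x u : Fin n → ℝ) (t : ℝ) :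
    qf M (t • x + u) = t ^ 2 * qf M x + t * (x ⬝ᵥ (M *ᵥ u) + u ⬝ᵥ (M *ᵥ x)) + qf M u := by
  simp only [qf, mulVec_add, mulVec_smul, add_dotProduct, dotProduct_add, smul_dotProduct,
    dotProduct_smul, smul_eq_mul]
  ring

theorem qf_smul (M : Matrix (Fin n) (Fin n) ℝ) (c : ℝ) (y : Fin n → ℝ) :
    qf M (c • y) = c ^ 2 * qf M y := by
  simp only [qf, mulVec_smul, smul_dotProduct, dotProduct_smul, smul_eq_mul]
  ring

theorem continuous_qf (M : Matrix (Fin n) (Fin n) ℝ) : Continuous (qf M) := by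
  unfold qf dotProduct Matrix.mulVec dotProduct
  fun_prop

/-- A nonnegative quadratic form is a sum of squares of linear forms. -/
theorem exists_sq {M : Matrix (Fin n) (Fin n) ℝ} (h : ∀ y, 0 ≤ qf M y) :
    ∃ B : Matrix (Fin n) (Fin n) ℝ, ∀ y, qf M y = ∑ j, (B *ᵥ y) j ^ 2 := by
  set M' := (1 / 2 : ℝ) • (M + Mᵀ) with hM'
  have hq : ∀ y, qf M' y = qf M y := fun y => by
    simp only [qf, hM', smul_mulVec, add_mulVec, dotProduct_smul, dotProduct_add, smul_eq_mul]
    rw [mulVec_transpose, dotProduct_comm y (y ᵥ* M), ← dotProduct_mulVec]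
    ring
  have hpsd : M'.PosSemidef := posSemidef_iff_real.2
    ⟨by simp [hM', Matrix.IsSymm, transpose_add, add_comm], fun y => by have := h y; rw [← hq] at this; exact this⟩
  obtain ⟨B, hB⟩ : ∃ B : Matrix (Fin n) (Fin n) ℝ, M' = Bᴴ * B := by
    classical
    open scoped MatrixOrder in
    exact CStarAlgebra.nonneg_iff_eq_star_mul_self.1 hpsd.nonneg
  refine ⟨B, fun y => ?_⟩
  rw [← hq, qf, hB, ← mulVec_mulVec, conjTranspose_eq_transpose_of_trivial, dotProduct_mulVec,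
    vecMul_transpose, dotProduct]
  exact sum_congr rfl fun j _ => (sq _).symm

/-- The data of the theorem. -/
structure Node (p : MvPolynomial (Fin n) ℝ) (e v : Fin n → ℝ) (k : ℕ) extends Sing3 p e v where
  l : (Fin n → ℝ) →ₗ[ℝ] ℝ
  τ : (Fin n → ℝ) →ₗ[ℝ] ℝ
  Φ : Fin k → Matrix (Fin n) (Fin n) ℝ
  G : Matrix (Fin n) (Fin n) ℝ
  hl : l v = 1
  hτ : TauPos (Hb p v) e τ
  hsos : ∀ y, τ y * -eval (y - l y • v) p = ∑ i, qf (Φ i) y ^ 2 + Hb p v y y * qf G y

namespace Node

variable {p : MvPolynomial (Fin n) ℝ} {e v : Fin n → ℝ} (D : Node p e v k)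

/-- The projection along `v`. -/
def proj : (Fin n → ℝ) →ₗ[ℝ] (Fin n → ℝ) := LinearMap.id - D.l.smulRight v

/-- The residual cubic. -/
noncomputable def res (y : Fin n → ℝ) : ℝ := -eval (D.proj y) p

theorem sos (y : Fin n → ℝ) :
    D.τ y * D.res y = ∑ i, qf (D.Φ i) y ^ 2 + Hb p v y y * qf D.G y := by
  simpa [res, proj] using D.hsos y

theorem eval_eq (y : Fin n → ℝ) : eval y p = D.l y * Hb p v y y - D.res y := by
  have h := D.toSing3.eval_add_v (D.proj y) (D.l y)
  have h1 : D.proj y + D.l y • v = y := by simp [proj]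
  have h2 : Hb p v (D.proj y) (D.proj y) = Hb p v y y := by
    have := Hb_add_sq (p := p) (v := v) (D.proj y) v (D.l y)
    rw [h1, D.toSing3.Hb_v, D.toSing3.Hb_v] at this
    linarith
  rw [h1, h2] at h
  simp only [res]; linarith

/-- The differential of the residual at `x`. -/
noncomputable def dres (x : Fin n → ℝ) : (Fin n → ℝ) →ₗ[ℝ] ℝ :=
  -((∑ i, grad p (D.proj x) i • (LinearMap.proj i : (Fin n → ℝ) →ₗ[ℝ] ℝ)).comp D.proj)

theorem dres_apply (x y : Fin n → ℝ) : D.dres x y = -lc p 1 (D.proj x) (D.proj y) := by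
  simp [dres, lc_one, mul_comm]

theorem dres_self (x : Fin n → ℝ) : D.dres x x = 3 * D.res x := by
  rw [dres_apply, lc_one_self D.hb.hom]; simp [res]

theorem res_line (x u : Fin n → ℝ) (t : ℝ) : D.res (t • x + u) =
    t ^ 3 * D.res x + t ^ 2 * D.dres x u + t * -lc p 1 (D.proj u) (D.proj x) + D.res u := by
  have hd := D.hb.hom
  simp only [res, map_add, map_smul, dres_apply]
  rw [add_comm (t • D.proj x), eval_eq_sum_lc hd.totalDegree_le]
  have r1 : lc p 2 (D.proj u) (D.proj x) = lc p 1 (D.proj x) (D.proj u) :=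
    lc_reflect hd (by norm_num) _ _
  simp only [sum_range_succ, sum_range_zero, lc_zero, lc_top hd, r1]
  ring

/-- The linear part of the tangent functional at `x`. -/
noncomputable def ell (x : Fin n → ℝ) : (Fin n → ℝ) →ₗ[ℝ] ℝ :=
  (-(Hb p v x x)⁻¹) • D.dres x + (2 * D.res x / Hb p v x x ^ 2) • Hb p v x

theorem ell_self {x : Fin n → ℝ} (hx : Hb p v x x ≠ 0) :
    D.ell x x = -(D.res x / Hb p v x x) := by
  simp only [ell, LinearMap.add_apply, LinearMap.smul_apply, smul_eq_mul, dres_self]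
  field_simp; ring

theorem ell_perp {x u : Fin n → ℝ} (hu : Hb p v x u = 0) :
    D.ell x u = -(D.dres x u / Hb p v x x) := by
  simp only [ell, LinearMap.add_apply, LinearMap.smul_apply, smul_eq_mul, hu]
  ring

theorem lor (D : Node p e v k) : Lor (Hb p v) e := D.toSing3.lor

theorem hneg (D : Node p e v k) : ∃ u, Hb p v u u < 0 := by
  obtain ⟨u, hu⟩ := D.neg
  exact ⟨u, by rw [Hb_self]; exact hu⟩

end Node

/-- The five coefficient equations of the certificate on one line. -/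
theorem line_nonneg {τ0 b Q C S2 S1 S0 q0 qu r2 r1 r0 : ℝ}
    (h : ∀ t : ℝ, (τ0 * t + b) * (Q * t + C) =
      S2 * t ^ 2 + 2 * S1 * t + S0 + (q0 * t ^ 2 + qu) * (r2 * t ^ 2 + r1 * t + r0))
    (hq0 : 0 < q0) :
    r2 = 0 ∧ r1 = 0 ∧
      (qu * τ0 ^ 2 + q0 * b ^ 2) * r0 = -(τ0 ^ 2 * S0 - 2 * τ0 * b * S1 + b ^ 2 * S2) := by
  have a0 := h 0
  have a1 := h 1
  have a2 := h (-1)
  have a3 := h 2
  have a4 := h (-2)
  ring_nf at a0 a1 a2 a3 a4
  have e4 : q0 * r2 = 0 := by linarith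
  have e3 : q0 * r1 = 0 := by linarith
  obtain rfl : r2 = 0 := by simpa [hq0.ne'] using e4
  obtain rfl : r1 = 0 := by simpa [hq0.ne'] using e3
  refine ⟨rfl, rfl, ?_⟩
  ring_nf at *
  have f2 : τ0 * Q = S2 + q0 * r0 := by linarith
  have f1 : τ0 * C + b * Q = 2 * S1 := by linarith
  have f0 : b * C = S0 + qu * r0 := by linarith
  linear_combination (-τ0 ^ 2) * f0 + (-b ^ 2) * f2 + (τ0 * b) * f1

namespace Node

variable {p : MvPolynomial (Fin n) ℝ} {e v : Fin n → ℝ} (D : Node p e v k)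

/-- The quotient by the polar quadric in the certificate at `x`, shifts `c`. -/
noncomputable def rest (x : Fin n → ℝ) (c : Fin k → ℝ) : Matrix (Fin n) (Fin n) ℝ :=
  D.G + vecMulVec (fun i => D.τ (Pi.single i 1)) (fun i => D.ell x (Pi.single i 1)) +
    ∑ a, ((2 * c a) • D.Φ a + (-(c a ^ 2) / 2) • Matrix.of (fun i j => hess p v i j))

theorem qf_rest (x : Fin n → ℝ) (c : Fin k → ℝ) (y : Fin n → ℝ) :
    qf (D.rest x c) y = qf D.G y + D.τ y * D.ell x y +
      ∑ a, (2 * c a * qf (D.Φ a) y - c a ^ 2 * Hb p v y y) := by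
  have hlin : ∀ f : (Fin n → ℝ) →ₗ[ℝ] ℝ, f y = (fun i => f (Pi.single i 1)) ⬝ᵥ y := fun f => by
    conv_lhs => rw [pi_eq_sum_univ' y]
    simp [dotProduct, mul_comm]
  have hh : qf (Matrix.of fun i j => hess p v i j) y = 2 * Hb p v y y := by
    rw [Hb_self, lc_two]
    simp only [qf, dotProduct, Matrix.mulVec, mul_sum, Matrix.of_apply]
    exact sum_congr rfl fun i _ => sum_congr rfl fun j _ => by ring
  simp only [qf] at hh ⊢
  rw [rest, add_mulVec, add_mulVec, dotProduct_add, dotProduct_add, sum_mulVec, dotProduct_sum,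
    vecMulVec_mulVec]
  congr 1
  · congr 1
    rw [hlin D.τ, hlin (D.ell x)]
    simp [dotProduct_comm]; ring
  · refine sum_congr rfl fun a _ => ?_
    rw [add_mulVec, dotProduct_add, smul_mulVec, smul_mulVec, dotProduct_smul, dotProduct_smul,
      hh, smul_eq_mul, smul_eq_mul]
    ring

/-- The certificate at a point of the open polar cone. -/
theorem cert {x : Fin n → ℝ} (hx : Pos (Hb p v) e x) :
    ∃ (c : Fin k → ℝ) (B : Matrix (Fin n) (Fin n) ℝ), ∀ y,
      D.τ y * (D.res y + D.ell x y * Hb p v y y) =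
        ∑ a, (qf (D.Φ a) y - c a * Hb p v y y) ^ 2 + Hb p v y y * ∑ j, (B *ᵥ y) j ^ 2 := by
  have L := D.lor
  set q0 := Hb p v x x with hq0def
  have hq0 : 0 < q0 := hx.1
  set c : Fin k → ℝ := fun a => qf (D.Φ a) x / q0 with hc
  have hid : ∀ y, D.τ y * (D.res y + D.ell x y * Hb p v y y) =
      ∑ a, (qf (D.Φ a) y - c a * Hb p v y y) ^ 2 + Hb p v y y * qf (D.rest x c) y := by
    intro y
    rw [D.qf_rest, mul_add, D.sos, mul_add, mul_sum, ← add_assoc, mul_add]
    have : ∑ a, qf (D.Φ a) y ^ 2 = ∑ a, (qf (D.Φ a) y - c a * Hb p v y y) ^ 2 +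
        ∑ a, Hb p v y y * (2 * c a * qf (D.Φ a) y - c a ^ 2 * Hb p v y y) := by
      rw [← sum_add_distrib]; exact sum_congr rfl fun a _ => by ring
    rw [this]; ring
  suffices hnn : ∀ y, 0 ≤ qf (D.rest x c) y by
    obtain ⟨B, hB⟩ := exists_sq hnn
    exact ⟨c, B, fun y => by rw [hid, hB]⟩
  set M := D.rest x c
  have hline : ∀ u, Hb p v x u = 0 → qf M x = 0 ∧ (x ⬝ᵥ (M *ᵥ u) + u ⬝ᵥ (M *ᵥ x)) = 0 ∧
      (Hb p v u u < 0 → 0 ≤ qf M u) := by
    intro u hu
    set A1 := -lc p 1 (D.proj u) (D.proj x)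
    set β : Fin k → ℝ := fun a => x ⬝ᵥ (D.Φ a *ᵥ u) + u ⬝ᵥ (D.Φ a *ᵥ x)
    set α : Fin k → ℝ := fun a => qf (D.Φ a) u - c a * Hb p v u u
    obtain ⟨h2, h1, h0⟩ := line_nonneg (τ0 := D.τ x) (b := D.τ u)
      (Q := A1 - D.res x / q0 * Hb p v u u)
      (C := D.res u - D.dres x u / q0 * Hb p v u u)
      (S2 := ∑ a, β a ^ 2) (S1 := ∑ a, β a * α a) (S0 := ∑ a, α a ^ 2)
      (q0 := q0) (qu := Hb p v u u)
      (r2 := qf M x) (r1 := x ⬝ᵥ (M *ᵥ u) + u ⬝ᵥ (M *ᵥ x)) (r0 := qf M u) (fun t => by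
        have hy := hid (t • x + u)
        have hq : Hb p v (t • x + u) (t • x + u) = q0 * t ^ 2 + Hb p v u u := by
          have := L.expand x u t 1
          rw [one_smul] at this
          rw [this, hu]; ring
        have hsum : ∑ a, (qf (D.Φ a) (t • x + u) - c a * (q0 * t ^ 2 + Hb p v u u)) ^ 2 =
            (∑ a, β a ^ 2) * t ^ 2 + 2 * (∑ a, β a * α a) * t + ∑ a, α a ^ 2 := by
          rw [sum_mul, mul_sum, sum_mul, ← sum_add_distrib, ← sum_add_distrib]
          refine sum_congr rfl fun a _ => ?_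
          have hca : c a * q0 = qf (D.Φ a) x := by simp [hc, hq0.ne']
          rw [qf_line]
          simp only [α, β]
          rw [← hca]; ring
        rw [hq, hsum, qf_line, D.res_line] at hy
        simp only [map_add, map_smul, smul_eq_mul, D.ell_self hq0.ne', D.ell_perp hu] at hy
        rw [← hq0def] at hy
        field_simp at hy ⊢
        linear_combination hy) hq0
    refine ⟨h2, h1, fun hun => ?_⟩
    have hfac := L.tau_bound D.hτ hx hu hun
    have hsq : 0 ≤ D.τ x ^ 2 * ∑ a, α a ^ 2 - 2 * D.τ x * D.τ u * ∑ a, β a * α a +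
        D.τ u ^ 2 * ∑ a, β a ^ 2 := by
      have : D.τ x ^ 2 * ∑ a, α a ^ 2 - 2 * D.τ x * D.τ u * ∑ a, β a * α a +
          D.τ u ^ 2 * ∑ a, β a ^ 2 = ∑ a, (D.τ x * α a - D.τ u * β a) ^ 2 := by
        rw [mul_sum, mul_sum, mul_sum, ← sum_sub_distrib, ← sum_add_distrib]
        exact sum_congr rfl fun a _ => by ring
      rw [this]; exact sum_nonneg fun a _ => sq_nonneg _
    nlinarith
  intro y
  set t := Hb p v x y / q0
  set u := y - t • x
  have hu : Hb p v x u = 0 := by simp [u, t, ← hq0def, hq0.ne']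
  obtain ⟨h2, h1, -⟩ := hline u hu
  have hy : qf M y = qf M u := by
    rw [show y = t • x + u by simp [u], qf_line, h2, h1]; ring
  rw [hy]
  obtain ⟨u', hxu', hu'⟩ := L.exists_neg hq0 D.hneg
  rcases lt_trichotomy (Hb p v u u) 0 with hlt | h0 | hgt
  · exact (hline u hu).2.2 hlt
  swap
  · exact absurd hgt (not_lt.2 (L.perp' hq0 hu))
  have hnp := L.null_perp hq0 hu h0 u'
  have hev : ∀ ε : ℝ, ε ≠ 0 → 0 ≤ qf M (ε • u' + u) := fun ε hε => by
    refine (hline _ (by simp [hu, hxu'])).2.2 ?_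
    rw [add_comm, L.quadAdd, h0, hnp]
    nlinarith [mul_self_pos.2 hε]
  have hf : Continuous fun ε : ℝ => qf M (ε • u' + u) := (continuous_qf M).comp (by fun_prop)
  refine ge_of_tendsto (x := nhdsWithin (0 : ℝ) (Set.Ioi 0)) ?_
    (eventually_nhdsWithin_of_forall fun ε hε => hev ε (ne_of_gt hε))
  simpa using (hf.tendsto 0).mono_left nhdsWithin_le_nhds

end Node

end Vale.Agent.P256.Cubic
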