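import Vale.Agent.P256.Cubic.Setup
import Vale.Agent.P256.Basic

/-!
The cubic is nonpositive on the null cone of its polar quadric over `e`.
-/

namespace Vale.Agent.P256.Cubic

open MvPolynomial Finset Conical Matrix Filter Topology

variable {n : ℕ} {p : MvPolynomial (Fin n) ℝ} {e v : Fin n → ℝ}

variable (p) in
/-- The symmetric trilinear form of a cubic. -/
noncomputable def T3 : (Fin n → ℝ) →ₗ[ℝ] (Fin n → ℝ) →ₗ[ℝ] (Fin n → ℝ) →ₗ[ℝ] ℝ :=
  ∑ i, (LinearMap.proj i : (Fin n → ℝ) →ₗ[ℝ] ℝ).smulRight (Hb p (Pi.single i 1))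

theorem T3_apply (x y z : Fin n → ℝ) :
    T3 p x y z = ∑ i, x i * Hb p (Pi.single i 1) y z := by
  simp [T3]

theorem T3_symm (x y z : Fin n → ℝ) : T3 p x y z = T3 p x z y := by
  simp only [T3_apply, Hb_symm (y := z)]

theorem T3_lc (hd : p.IsHomogeneous 3) (w y : Fin n → ℝ) : T3 p w y y = lc p 1 y w := by
  rw [T3_apply, lc_one]
  refine sum_congr rfl fun i _ => ?_
  rw [Hb_self, lc_reflect hd (by norm_num) (Pi.single i 1) y, lc_one]
  simp [Pi.single_apply]

theorem T3_eval (hd : p.IsHomogeneous 3) (y : Fin n → ℝ) : T3 p y y y = 3 * eval y p := by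
  rw [T3_lc hd, lc_one_self hd]

/-- Expansion of a cubic along a line. -/
theorem eval_line3 (hd : p.IsHomogeneous 3) (y z : Fin n → ℝ) (s : ℝ) :
    eval (y + s • z) p =
      eval y p + s * T3 p z y y + s ^ 2 * T3 p y z z + s ^ 3 * eval z p := by
  rw [eval_eq_sum_lc hd.totalDegree_le, T3_lc hd, T3_lc hd]
  have r : lc p 2 y z = lc p 1 z y := lc_reflect hd (by norm_num) _ _
  simp only [sum_range_succ, sum_range_zero, lc_zero, lc_top hd, r]
  ring

variable (S : Sing3 p e v)
include S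

/-- On null vectors over `e` the cubic is nonpositive. -/
theorem Sing3.null_nonneg {y : Fin n → ℝ} (hy : Hb p v y y = 0) (hey : 0 < Hb p v e y) :
    eval y p ≤ 0 := by
  by_contra hpos
  push Not at hpos
  have hd := S.hb.hom
  have hqe : 0 < Hb p v e e := S.lor.pos
  set A := {M : ℝ | y + M • v ∈ inner p 3 e}
  have hc : Continuous fun M : ℝ => y + M • v := by fun_prop
  have hev : ∀ M : ℝ, 0 < eval (y + M • v) p := fun M => by
    rw [S.eval_add_v, hy, mul_zero, add_zero]; exact hpos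
  have hclo : IsClosed A := by
    have : A = {M : ℝ | y + M • v ∈ cone p e} := Set.ext fun M =>
      ⟨fun h => S.hb.inner_subset h, fun h => S.hb.inner_of_cone_pos h (hev M).ne'⟩
    rw [this]; exact (isClosed_cone p e).preimage hc
  have hne : A.Nonempty := by
    have hlim : ∀ a b : ℝ, 0 < b → ∀ᶠ M : ℝ in atTop, 0 < a + M * b := fun a b hb =>
      (tendsto_atTop_add_const_left _ a (tendsto_id.atTop_mul_const hb)).eventually_gt_atTop 0
    obtain ⟨M, h1, h2⟩ := ((hlim (lc p 1 y e) (2 * Hb p v y e)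
      (by rw [Hb_symm] at hey; linarith)).and (hlim (lc p 2 y e) _ hqe)).exists
    refine ⟨M, fun k hk => ?_⟩
    have hk4 : k < 4 := mem_range.1 hk
    have key := S.lc_add_v y M k
    interval_cases k
    · rw [lc_zero]; exact hev M
    · simp [Polynomial.coeff_C] at key
      rw [key]; exact h1
    · simp at key
      rw [key]; exact h2
    · rw [lc_top hd]; exact S.hb.pos
  have huniv := (show IsClopen A from ⟨hclo, (isOpen_inner p 3 e).preimage hc⟩).eq_univ hne
  have hv : -v ∈ cone p e := by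
    have hlim : Tendsto (fun M : ℝ => M⁻¹ • y + -v) atTop (𝓝 (-v)) := by
      simpa using ((tendsto_inv_atTop_zero : Tendsto (fun M : ℝ => M⁻¹) atTop (𝓝 0)).smul_const y).add_const (-v)
    refine (isClosed_cone p e).mem_of_tendsto hlim ((eventually_gt_atTop 0).mono fun M hM => ?_)
    have hm : y + (-M) • v ∈ inner p 3 e := show -M ∈ A by rw [huniv]; trivial
    have := S.hb.cone_smul (S.hb.inner_subset hm) (inv_nonneg.2 hM.le)
    rwa [smul_add, smul_smul, mul_neg, inv_mul_cancel₀ hM.ne', neg_one_smul] at this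
  have h2 := hv 2
  rw [S.hb.lc_neg (by norm_num : 2 ≤ 3), ← Hb_self] at h2
  norm_num at h2
  linarith

/-- The quadratic form carried by a null direction `Y` over the lineality. -/
theorem Sing3.null_form {Y z : Fin n → ℝ} (hY : Hb p v Y Y = 0) (heY : 0 < Hb p v e Y)
    (hz : ∀ w, Hb p v z w = 0) :
    eval z p = 0 ∧ ∀ c : ℝ, c ^ 2 * eval Y p + c * T3 p z Y Y + T3 p Y z z ≤ 0 := by
  have hzR : ∀ w, Hb p v w z = 0 := fun w => by rw [Hb_symm]; exact hz w
  have hs : ∀ s : ℝ, eval Y p + s * T3 p z Y Y + s ^ 2 * T3 p Y z z + s ^ 3 * eval z p ≤ 0 :=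
    fun s => by
      rw [← eval_line3 S.hb.hom]
      refine S.null_nonneg ?_ ?_
      · rw [Hb_add_sq, hY, hzR, hz]; ring
      · simpa [hzR] using heY
  set a := eval Y p
  set b := T3 p z Y Y
  set c2 := T3 p Y z z
  set d := eval z p
  have hd0 : d = 0 := by
    by_contra hd
    set K := |a| + |b| + |c2| + 1 with hK
    have hK1 : 1 ≤ K := by linarith [abs_nonneg a, abs_nonneg b, abs_nonneg c2]
    set M := K / |d| + 1 with hM
    have hdp : 0 < |d| := abs_pos.2 hd
    have hM1 : 1 ≤ M := by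
      have : 0 ≤ K / |d| := div_nonneg (by linarith) hdp.le
      linarith
    have hMd : M * |d| = K + |d| := by rw [hM]; field_simp
    have e1 : M ^ 3 * |d| = M ^ 2 * (K + |d|) := by rw [← hMd]; ring
    have hM2 : (1 : ℝ) ≤ M ^ 2 := one_le_pow₀ hM1
    have hMM : M ≤ M ^ 2 := by nlinarith
    have g1 : |a| ≤ M ^ 2 * |a| := le_mul_of_one_le_left (abs_nonneg _) hM2
    have g2 : M * |b| ≤ M ^ 2 * |b| := mul_le_mul_of_nonneg_right hMM (abs_nonneg _)
    have g3 : M ^ 2 * 1 ≤ M ^ 2 * (1 + |d|) := by nlinarith [abs_nonneg d]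
    have g4 := mul_le_mul_of_nonneg_left (neg_abs_le c2) (sq_nonneg M)
    rcases le_or_gt 0 d with hd' | hd'
    · have := hs M
      rw [abs_of_nonneg hd'] at e1
      nlinarith [neg_abs_le a, mul_le_mul_of_nonneg_left (neg_abs_le b) (by linarith : (0:ℝ) ≤ M)]
    · have := hs (-M)
      rw [abs_of_neg hd'] at e1
      nlinarith [neg_abs_le a, mul_le_mul_of_nonneg_left (le_abs_self b) (by linarith : (0:ℝ) ≤ M)]
  refine ⟨hd0, fun c => ?_⟩
  have hq : ∀ c : ℝ, c ≠ 0 → c ^ 2 * a + c * b + c2 ≤ 0 := fun c hc => by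
    have := mul_nonpos_of_nonneg_of_nonpos (sq_nonneg c) (hs c⁻¹)
    rw [hd0] at this
    refine le_of_eq_of_le ?_ this
    field_simp; ring
  rcases eq_or_ne c 0 with rfl | hc
  swap
  · exact hq c hc
  have hf : Continuous fun c : ℝ => c ^ 2 * a + c * b + c2 := by fun_prop
  exact le_of_tendsto (x := 𝓝[≠] (0 : ℝ)) ((hf.tendsto 0).mono_left nhdsWithin_le_nhds)
    (eventually_nhdsWithin_of_forall hq)

end Vale.Agent.P256.Cubic
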