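import Vale.Agent.P256.Cubic.Main
import Vale.Agent.P256.Cubic.Null

/-!
An identity on the null cone of the polar quadric yields the certificate.
-/

namespace Vale.Agent.P256.Cubic

open MvPolynomial Finset Conical Matrix Filter Topology

variable {n : ℕ}

/-- A function given by a quadratic form. -/
def IsQ (f : (Fin n → ℝ) → ℝ) : Prop := ∃ M : Matrix (Fin n) (Fin n) ℝ, ∀ y, qf M y = f y

theorem qf_bil (M : Matrix (Fin n) (Fin n) ℝ) (y : Fin n → ℝ) :
    qf M y = Matrix.toLinearMap₂' ℝ M y y := by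
  rw [Matrix.toLinearMap₂'_apply', qf]

theorem IsQ.bil (B : (Fin n → ℝ) →ₗ[ℝ] (Fin n → ℝ) →ₗ[ℝ] ℝ) : IsQ fun y => B y y :=
  ⟨LinearMap.toMatrix₂' ℝ B, fun y => by rw [qf_bil, Matrix.toLinearMap₂'_toMatrix']⟩

theorem IsQ.mul (f g : (Fin n → ℝ) →ₗ[ℝ] ℝ) : IsQ fun y => f y * g y := by
  simpa using IsQ.bil (f.smulRight g)

theorem IsQ.add {f g : (Fin n → ℝ) → ℝ} (hf : IsQ f) (hg : IsQ g) : IsQ fun y => f y + g y := by
  obtain ⟨A, hA⟩ := hf
  obtain ⟨B, hB⟩ := hg
  exact ⟨A + B, fun y => by simp only [← hA, ← hB, qf, add_mulVec, dotProduct_add]⟩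

theorem IsQ.const_mul {f : (Fin n → ℝ) → ℝ} (hf : IsQ f) (c : ℝ) : IsQ fun y => c * f y := by
  obtain ⟨A, hA⟩ := hf
  exact ⟨c • A, fun y => by simp only [← hA, qf, smul_mulVec, dotProduct_smul, smul_eq_mul]⟩

theorem IsQ.sum {κ : Type*} (s : Finset κ) {f : κ → (Fin n → ℝ) → ℝ} (h : ∀ a, IsQ (f a)) :
    IsQ fun y => ∑ a ∈ s, f a y := by
  classical
  induction s using Finset.induction_on with
  | empty => exact ⟨0, fun y => by simp [qf]⟩
  | @insert a s ha ih =>
    have := (h a).add ih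
    simpa [sum_insert ha] using this

/-- A quartic that vanishes at `±√W` is a multiple of `t² - W`. -/
theorem quartic_div {c4 c3 c2 c1 c0 W : ℝ} (hW : 0 < W)
    (h : ∀ t : ℝ, t ^ 2 = W → c4 * t ^ 4 + c3 * t ^ 3 + c2 * t ^ 2 + c1 * t + c0 = 0) :
    c1 + W * c3 = 0 ∧ c0 + W * c2 + W ^ 2 * c4 = 0 := by
  have hs : Real.sqrt W ^ 2 = W := Real.sq_sqrt hW.le
  have hs0 : 0 < Real.sqrt W := Real.sqrt_pos.2 hW
  set s := Real.sqrt W
  have h1 := h s hs
  have h2 := h (-s) (by rw [neg_sq]; exact hs)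
  have e : s * (c1 + W * c3) = 0 := by
    linear_combination (h1 - h2) / 2 - c3 * s * hs
  refine ⟨(mul_eq_zero.1 e).resolve_left hs0.ne', ?_⟩
  linear_combination (h1 + h2) / 2 - (c2 + c4 * (s ^ 2 + W)) * hs

variable {p : MvPolynomial (Fin n) ℝ} {e v : Fin n → ℝ} (S : Sing3 p e v)
include S

/-- A sum-of-squares identity on the null cone gives a lift. -/
theorem Sing3.shadow_of_null {κ : Type*} [Fintype κ] (Φ : κ → Matrix (Fin n) (Fin n) ℝ)
    (E U : Fin n → ℝ) (hE : Hb p v E E = 1) (hEy : ∀ y, 0 < Hb p v e y → 0 < Hb p v E y)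
    (hEU : Hb p v E U = 0) (hU : Hb p v U U ≠ 0)
    (hnull : ∀ r : Fin n → ℝ, Hb p v E r = 0 → Hb p v U r ≠ 0 → ∀ t : ℝ, t ^ 2 = -Hb p v r r →
      t * -eval (t • E + r) p = ∑ a, qf (Φ a) (t • E + r) ^ 2) :
    IsShadow (cone p e) := by
  have hd := S.hb.hom
  have hv0 : v ≠ 0 := by
    rintro rfl
    obtain ⟨x, hx⟩ := S.neg
    rw [lc_reflect hd (by norm_num), lc_one] at hx
    simp at hx
  obtain ⟨i0, hi0⟩ := Function.ne_iff.1 hv0
  set l : (Fin n → ℝ) →ₗ[ℝ] ℝ := (v i0)⁻¹ • LinearMap.proj i0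
  have hl : l v = 1 := by simp [l, inv_mul_cancel₀ hi0]
  set τ := Hb p v E
  set B : κ → (Fin n → ℝ) →ₗ[ℝ] (Fin n → ℝ) →ₗ[ℝ] ℝ := fun a => Matrix.toLinearMap₂' ℝ (Φ a)
  set R : (Fin n → ℝ) →ₗ[ℝ] (Fin n → ℝ) := LinearMap.id - τ.smulRight E
  set α : κ → ℝ := fun a => qf (Φ a) E
  set β : κ → (Fin n → ℝ) →ₗ[ℝ] ℝ := fun a => B a E + (B a).flip E
  set C4 : ℝ := -eval E p - ∑ a, α a ^ 2
  set C3 : (Fin n → ℝ) → ℝ := fun r => -T3 p r E E - ∑ a, 2 * α a * β a r
  set C2 : (Fin n → ℝ) → ℝ := fun r =>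
    -T3 p E r r - ∑ a, (β a r ^ 2 + 2 * α a * qf (Φ a) r)
  set C1 : (Fin n → ℝ) → ℝ := fun r => -eval r p - ∑ a, 2 * β a r * qf (Φ a) r
  set C0 : (Fin n → ℝ) → ℝ := fun r => -∑ a, qf (Φ a) r ^ 2
  have hexp : ∀ (t : ℝ) (r : Fin n → ℝ), t * -eval (t • E + r) p - ∑ a, qf (Φ a) (t • E + r) ^ 2 =
      C4 * t ^ 4 + C3 r * t ^ 3 + C2 r * t ^ 2 + C1 r * t + C0 r := by
    intro t r
    have hq : ∀ a, qf (Φ a) (t • E + r) = t ^ 2 * α a + t * β a r + qf (Φ a) r := fun a => by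
      simp only [qf_bil, α, β, B, map_add, map_smul, LinearMap.add_apply, LinearMap.smul_apply,
        LinearMap.flip_apply, smul_eq_mul]
      ring
    have hs : ∑ a, qf (Φ a) (t • E + r) ^ 2 = t ^ 4 * ∑ a, α a ^ 2 +
        t ^ 3 * ∑ a, 2 * α a * β a r + t ^ 2 * ∑ a, (β a r ^ 2 + 2 * α a * qf (Φ a) r) +
        t * ∑ a, 2 * β a r * qf (Φ a) r + ∑ a, qf (Φ a) r ^ 2 := by
      simp only [mul_sum, ← sum_add_distrib]
      exact sum_congr rfl fun a _ => by rw [hq]; ring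
    have hE3 : eval (t • E) p = t ^ 3 * eval E p := eval_smul hd t E
    have he := eval_line3 hd r (t • E) 1
    rw [one_smul, add_comm r, hE3] at he
    simp only [map_smul, LinearMap.smul_apply, smul_eq_mul] at he
    rw [hs, he]
    simp only [C4, C3, C2, C1, C0]
    ring
  have hdense : ∀ r, τ r = 0 → Hb p v U r ≠ 0 →
      C1 r + -Hb p v r r * C3 r = 0 ∧ C0 r + -Hb p v r r * C2 r + (-Hb p v r r) ^ 2 * C4 = 0 := by
    intro r hr hUr
    have hle := S.lor.perp' (x := E) (by rw [hE]; norm_num) hr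
    have hlt : 0 < -Hb p v r r := by
      refine neg_pos.2 (lt_of_le_of_ne hle fun h0 => hUr ?_)
      rw [Hb_symm]; exact S.lor.null_perp (z := E) (by rw [hE]; norm_num) hr h0 U
    exact quartic_div hlt fun t ht => by rw [← hexp, hnull r hr hUr t ht, sub_self]
  have hall : ∀ r, τ r = 0 →
      C1 r + -Hb p v r r * C3 r = 0 ∧ C0 r + -Hb p v r r * C2 r + (-Hb p v r r) ^ 2 * C4 = 0 := by
    intro r hr
    by_cases hUr : Hb p v U r = 0
    swap
    · exact hdense r hr hUr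
    have hpos : ∀ ε : ℝ, ε ≠ 0 → τ (r + ε • U) = 0 ∧ Hb p v U (r + ε • U) ≠ 0 := fun ε hε => by
      simp only [τ] at hr ⊢
      refine ⟨by simp [hr]; right; exact hEU, ?_⟩
      simp [hUr, hε, hU]
    have hq : ∀ M : Matrix (Fin n) (Fin n) ℝ, Continuous fun ε : ℝ => qf M (r + ε • U) := fun M =>
      (continuous_qf M).comp (by fun_prop)
    have hb : ∀ a, Continuous fun ε : ℝ => β a (r + ε • U) := fun a => by
      simp only [map_add, map_smul, smul_eq_mul]; fun_prop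
    have hev : Continuous fun ε : ℝ => eval (r + ε • U) p :=
      (MvPolynomial.continuous_eval p).comp (by fun_prop)
    have h3 : Continuous fun ε : ℝ => C3 (r + ε • U) := by
      simp only [C3, map_add, map_smul, LinearMap.add_apply, LinearMap.smul_apply, smul_eq_mul]
      fun_prop
    have h2 : Continuous fun ε : ℝ => C2 (r + ε • U) := by
      simp only [C2]
      refine .sub ?_ (continuous_finsetSum _ fun a _ => ((hb a).pow 2).add ((hq _).const_mul _))
      simp only [map_add, map_smul, LinearMap.add_apply, LinearMap.smul_apply, smul_eq_mul]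
      fun_prop
    have h1 : Continuous fun ε : ℝ => C1 (r + ε • U) := hev.neg.sub
      (continuous_finsetSum _ fun a _ => ((hb a).const_mul 2).mul (hq _))
    have h0 : Continuous fun ε : ℝ => C0 (r + ε • U) :=
      (continuous_finsetSum _ fun a _ => (hq _).pow 2).neg
    have hW : Continuous fun ε : ℝ => -Hb p v (r + ε • U) (r + ε • U) := by
      simp only [Hb_add_sq]; fun_prop
    constructor
    · have := (h1.add (hW.mul h3)).tendsto 0
      simpa using tendsto_nhds_unique (this.mono_left (nhdsWithin_le_nhds (s := {(0 : ℝ)}ᶜ)))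
        (tendsto_const_nhds.congr' (eventually_nhdsWithin_of_forall fun ε hε =>
          (hdense _ (hpos ε hε).1 (hpos ε hε).2).1.symm))
    · have := ((h0.add (hW.mul h2)).add ((hW.pow 2).mul (continuous_const (y := C4)))).tendsto 0
      simpa using tendsto_nhds_unique (this.mono_left (nhdsWithin_le_nhds (s := {(0 : ℝ)}ᶜ)))
        (tendsto_const_nhds.congr' (eventually_nhdsWithin_of_forall fun ε hε =>
          (hdense _ (hpos ε hε).1 (hpos ε hε).2).2.symm))
  have hG : IsQ fun y => C4 * (τ y * τ y) + τ y * C3 (R y) + C2 (R y) +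
      C4 * (-Hb p v (R y) (R y)) + τ y * l y := by
    set L3 : (Fin n → ℝ) →ₗ[ℝ] ℝ :=
      (-(((T3 p).flip E).flip E) - ∑ a, (2 * α a) • β a).comp R with hL3
    have e3 : ∀ y, C3 (R y) = L3 y := fun y => by
      simp [hL3, C3]
    have h2 : IsQ fun y => C2 (R y) := by
      have a1 := (IsQ.bil ((T3 p E).compl₁₂ R R)).const_mul (-1)
      have a2 := (IsQ.sum (univ : Finset κ) fun a => ((IsQ.mul ((β a).comp R) ((β a).comp R)).add
        ((IsQ.bil ((B a).compl₁₂ R R)).const_mul (2 * α a)))).const_mul (-1)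
      obtain ⟨M, hM⟩ := a1.add a2
      exact ⟨M, fun y => by rw [hM]; simp [C2, B, qf_bil, sq]; ring⟩
    obtain ⟨M, hM⟩ := ((((IsQ.mul τ τ).const_mul C4).add (IsQ.mul τ L3)).add h2).add
      ((IsQ.bil ((Hb p v).compl₁₂ R R)).const_mul (-C4)) |>.add (IsQ.mul τ l)
    exact ⟨M, fun y => by rw [hM]; simp [e3]⟩
  obtain ⟨G, hG⟩ := hG
  refine Node.isShadow (k := Fintype.card κ)
    { S with
      l := l, τ := τ, G := G, hl := hl
      Φ := fun a => Φ ((Fintype.equivFin κ).symm a)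
      hτ := fun y _ he => hEy y he
      hsos := fun y => ?_ }
  rw [(Fintype.equivFin κ).symm.sum_comp (fun a => qf (Φ a) y ^ 2)]
  set t := τ y
  set r := R y
  have hy : t • E + r = y := by simp [t, r, R]
  have hr : τ r = 0 := by simp [r, R, τ, hE]
  obtain ⟨k1, k0⟩ := hall r hr
  have hq : Hb p v y y = t ^ 2 + Hb p v r r := by
    rw [← hy, add_comm, Hb_add_sq, hE, show Hb p v r E = 0 by rw [Hb_symm]; exact hr]
    ring
  have hexy := hexp t r
  rw [hy] at hexy
  have hev : eval (y - l y • v) p = eval y p - l y * Hb p v y y := by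
    rw [sub_eq_add_neg, ← neg_smul, S.eval_add_v]; ring
  rw [hev, hG, hq]
  linear_combination hexy + t * k1 + k0

end Vale.Agent.P256.Cubic
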