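import Vale.Agent.P256.Cubic.Fejer

/-!
Every polynomial matrix that is positive semidefinite on the real line is `Gᴴ G` there.
-/

namespace Vale.Agent.P256.Cubic

open Polynomial Matrix Filter Topology Finset ComplexConjugate
open scoped ComplexOrder

variable {ι : Type*} [Fintype ι] [DecidableEq ι]

omit [Fintype ι] in
theorem at'_updateCol_one (i : ι) (c : ι → ℂ[X]) (a b : ι) :
    (1 : Matrix ι ι ℂ[X]).updateCol i c a b = if b = i then c a else if a = b then 1 else 0 := by
  rw [updateCol_apply, Matrix.one_apply]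

/-- The matrix with column `i` replaced. -/
noncomputable def shear (i : ι) (c : ι → ℂ[X]) : Matrix ι ι ℂ[X] :=
  (1 : Matrix ι ι ℂ[X]).updateCol i c

theorem det_shear (i : ι) (c : ι → ℂ[X]) : (shear i c).det = c i := by
  have h := det_updateCol_sum (1 : Matrix ι ι ℂ[X]) i c
  simp only [Matrix.one_apply, smul_eq_mul, mul_ite, mul_one, mul_zero, det_one,
    Finset.sum_ite_eq, Finset.mem_univ, if_true] at h
  simpa [shear] using h

/-- Congruence by a matrix of determinant one. -/
theorem Factors.of_congr {M T : Matrix ι ι ℂ[X]} (hT : T.det = 1)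
    (h : Factors (pstar T * M * T)) : Factors M := by
  refine h.congr T.adjugate fun t => ?_
  have h1 : at' T t * at' T.adjugate t = 1 := by
    rw [← at'_mul, mul_adjugate, hT, one_smul]
    exact (evalRingHom (t : ℂ)).mapMatrix.map_one
  rw [at'_mul, at'_mul, at'_pstar,
    show (at' T.adjugate t)ᴴ * ((at' T t)ᴴ * at' M t * at' T t) * at' T.adjugate t =
      (at' T t * at' T.adjugate t)ᴴ * at' M t * (at' T t * at' T.adjugate t) by
    simp only [conjTranspose_mul, Matrix.mul_assoc]]
  rw [h1, conjTranspose_one, Matrix.one_mul, Matrix.mul_one]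

theorem det_congr {M T : Matrix ι ι ℂ[X]} (hT : T.det = 1) :
    (pstar T * M * T).det = M.det := by
  rw [det_mul, det_mul, det_pstar, hT, Polynomial.map_one, one_mul, mul_one]

omit [DecidableEq ι] in
/-- A positive semidefinite matrix with positive semidefinite on a punctured line. -/
theorem psdLine_of_punctured {M : Matrix ι ι ℂ[X]} (r : ℝ)
    (h : ∀ t : ℝ, t ≠ r → (at' M t).PosSemidef) : PsdLine M := fun t => by
  rcases eq_or_ne t r with rfl | ht
  swap
  · exact h t ht
  have hcont : Continuous fun s : ℝ => at' M s := by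
    refine continuous_pi fun i => continuous_pi fun j => ?_
    simp only [at', Matrix.map_apply]
    fun_prop
  have hl : Tendsto (fun s : ℝ => at' M s) (𝓝[≠] t) (𝓝 (at' M t)) :=
    (hcont.tendsto t).mono_left nhdsWithin_le_nhds
  refine PosSemidef.of_dotProduct_mulVec_nonneg ?_ fun x => ?_
  · have hc : Continuous fun A : Matrix ι ι ℂ => Aᴴ := continuous_id.matrix_conjTranspose
    exact tendsto_nhds_unique ((hc.tendsto _).comp hl) (hl.congr'
      (eventually_nhdsWithin_of_forall fun s hs => (h s hs).isHermitian.symm))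
  · have hc : Continuous fun A : Matrix ι ι ℂ => star x ⬝ᵥ (A *ᵥ x) := by
      unfold dotProduct Matrix.mulVec dotProduct; fun_prop
    exact ge_of_tendsto ((hc.tendsto _).comp hl)
      (eventually_nhdsWithin_of_forall fun s hs => (h s hs).dotProduct_mulVec_nonneg x)

/-- The root step. -/
theorem root_step {M : Matrix ι ι ℂ[X]} (h : PsdLine M) {z : ℂ} (hM : M.det ≠ 0)
    (hz : M.det.eval z = 0) :
    ∃ Q : Matrix ι ι ℂ[X], PsdLine Q ∧ Q.det.natDegree < M.det.natDegree ∧
      (Factors Q → Factors M) := by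
  obtain ⟨c, hc0, hc⟩ := exists_mulVec_eq_zero_iff.2
    (show (M.map (eval z)).det = 0 by
      rw [← coe_evalRingHom, ← RingHom.mapMatrix_apply, ← RingHom.map_det, coe_evalRingHom, hz])
  obtain ⟨i, hi⟩ := Function.ne_iff.1 hc0
  rw [Pi.zero_apply] at hi
  set c' : ι → ℂ := (c i)⁻¹ • c
  have hc' : M.map (eval z) *ᵥ c' = 0 := by simp [c', mulVec_smul, hc]
  set T := shear i fun a => C (c' a)
  have hT : T.det = 1 := by
    rw [det_shear, show c' i = 1 by simp [c', hi], C_1]
  set M₁ := pstar T * M * T with hM₁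
  have h₁ : PsdLine M₁ := h.congr T
  have hcol : ∀ a, (M₁ a i).eval z = 0 := by
    intro a
    rw [hM₁, Matrix.mul_assoc, Matrix.mul_apply, eval_finsetSum]
    refine sum_eq_zero fun b _ => ?_
    have : ((M * T) b i).eval z = 0 := by
      rw [Matrix.mul_apply, eval_finsetSum]
      refine Eq.trans (sum_congr rfl fun k _ => ?_) (congrFun hc' b)
      simp [T, shear]
    rw [eval_mul, this, mul_zero]
  have hrow : ∀ a, (M₁ i a).eval (conj z) = 0 := fun a => by
    rw [h₁.herm a i, eval_conj_map, Complex.conj_conj, hcol, map_zero]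
  have hdiag : (X - C (conj z)) * (X - C z) ∣ M₁ i i := by
    rcases eq_or_ne (conj z) z with hzr | hzr
    swap
    · exact (isCoprime_X_sub_C_of_isUnit_sub (sub_ne_zero.2 hzr).isUnit).mul_dvd
        (dvd_iff_isRoot.2 (hrow i)) (dvd_iff_isRoot.2 (hcol i))
    rw [hzr]
    obtain ⟨r, rfl⟩ : ∃ r : ℝ, z = r := ⟨z.re, (Complex.conj_eq_iff_re.1 hzr).symm⟩
    obtain ⟨q, hq⟩ := dvd_iff_isRoot.2 (hcol i)
    suffices q.eval (r : ℂ) = 0 by
      rw [hq]; exact mul_dvd_mul_left _ (dvd_iff_isRoot.2 this)
    have hval : ∀ t : ℝ, (M₁ i i).eval (t : ℂ) = ((t - r : ℝ) : ℂ) * q.eval (t : ℂ) := fun t => by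
      rw [hq]; simp
    have hcre : Continuous fun t : ℝ => (q.eval (t : ℂ)).re := by fun_prop
    have hcim : Continuous fun t : ℝ => (q.eval (t : ℂ)).im := by fun_prop
    have hd : ∀ t : ℝ, (t - r) * (q.eval (t : ℂ)).im = 0 ∧ 0 ≤ (t - r) * (q.eval (t : ℂ)).re :=
      fun t => by
        have := h₁.diag_im i t
        rw [hval, Complex.re_ofReal_mul, Complex.im_ofReal_mul] at this
        exact this
    refine Complex.ext (le_antisymm ?_ ?_) ?_
    · refine le_of_tendsto (x := 𝓝[<] r) ((hcre.tendsto r).mono_left nhdsWithin_le_nhds)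
        (eventually_nhdsWithin_of_forall fun t (ht : t < r) => ?_)
      have := (hd t).2
      by_contra hp
      simp only [Complex.zero_re, not_le] at hp
      nlinarith [mul_pos (sub_pos.2 ht) hp]
    · refine ge_of_tendsto (x := 𝓝[>] r) ((hcre.tendsto r).mono_left nhdsWithin_le_nhds)
        (eventually_nhdsWithin_of_forall fun t (ht : r < t) => ?_)
      exact nonneg_of_mul_nonneg_right (hd t).2 (sub_pos.2 ht)
    · refine tendsto_nhds_unique ((hcim.tendsto r).mono_left
        (nhdsWithin_le_nhds (s := Set.Ioi r))) (tendsto_const_nhds.congr' ?_)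
      filter_upwards [self_mem_nhdsWithin] with t (ht : r < t)
      exact ((mul_eq_zero.1 (hd t).1).resolve_left (sub_pos.2 ht).ne').symm
  set d : ι → ℂ[X] := fun a => if a = i then X - C z else 1
  have hex : ∀ a b, ∃ q, M₁ a b = (d a).map (starRingEnd ℂ) * q * d b := by
    intro a b
    rcases eq_or_ne a i with ha | ha <;> rcases eq_or_ne b i with hb | hb
    · obtain ⟨q, hq⟩ := hdiag
      exact ⟨q, by simp [d, hq, ha, hb]; ring⟩
    · obtain ⟨q, hq⟩ := dvd_iff_isRoot.2 (hrow b)
      exact ⟨q, by simp [d, hq, ha, hb]⟩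
    · obtain ⟨q, hq⟩ := dvd_iff_isRoot.2 (hcol a)
      exact ⟨q, by simp [d, hq, ha, hb, mul_comm]⟩
    · exact ⟨M₁ a b, by simp [d, ha, hb]⟩
  choose q hq using hex
  set Q : Matrix ι ι ℂ[X] := Matrix.of q
  have hD : M₁ = pstar (diagonal d) * Q * diagonal d := by
    ext1 a b
    have : pstar (diagonal d) = diagonal fun a => (d a).map (starRingEnd ℂ) := by
      ext1 a b
      rcases eq_or_ne a b with rfl | hab
      · simp [pstar]
      · simp [pstar, hab, hab.symm]
    rw [this, mul_diagonal, diagonal_mul, hq a b]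
    rfl
  refine ⟨Q, psdLine_of_punctured z.re fun t ht => ?_, ?_, fun hf => ?_⟩
  · have hne : ∀ a, (d a).eval (t : ℂ) ≠ 0 := fun a => by
      simp only [d]; split_ifs
      · simp only [eval_sub, eval_X, eval_C, sub_ne_zero]
        rintro rfl; exact ht (by simp)
      · simp
    set w : ι → ℂ := fun a => ((d a).eval (t : ℂ))⁻¹
    have hdd : at' (diagonal d) t * diagonal w = 1 := by
      rw [at', diagonal_map (by simp), diagonal_mul_diagonal, ← diagonal_one]
      congr 1; funext a; exact mul_inv_cancel₀ (hne a)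
    have hw := (h₁ t).conjTranspose_mul_mul_same (diagonal w)
    rw [hD, at'_mul, at'_mul, at'_pstar,
      show (diagonal w)ᴴ * ((at' (diagonal d) t)ᴴ * at' Q t * at' (diagonal d) t) * diagonal w =
        (at' (diagonal d) t * diagonal w)ᴴ * at' Q t * (at' (diagonal d) t * diagonal w) by
      simp only [conjTranspose_mul, Matrix.mul_assoc], hdd, conjTranspose_one, Matrix.one_mul,
      Matrix.mul_one] at hw
    exact hw
  · have hdet : M₁.det = M.det := det_congr hT
    have hprod : (diagonal d).det = X - C z := by simp [det_diagonal, d]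
    rw [hD, det_mul, det_mul, det_pstar, hprod] at hdet
    have hQ : Q.det ≠ 0 := by rintro h0; exact hM (by rw [← hdet, h0, mul_zero, zero_mul])
    have h1 : (X - C z).map (starRingEnd ℂ) ≠ 0 := by simp [X_sub_C_ne_zero]
    rw [← hdet, natDegree_mul (mul_ne_zero h1 hQ) (X_sub_C_ne_zero z), natDegree_mul h1 hQ,
      natDegree_X_sub_C]
    omega
  · refine Factors.of_congr hT ?_
    exact hf.congr (diagonal d) fun t => by
      rw [← hM₁, hD, at'_mul, at'_mul, at'_pstar]

omit [Fintype ι] [DecidableEq ι] in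
theorem natDegree_prod_le' (s : Finset ι) (f : ι → ℂ[X]) (m : ι → ℕ)
    (h : ∀ a ∈ s, (f a).natDegree ≤ m a) :
    (∏ a ∈ s, f a).natDegree ≤ ∑ a ∈ s, m a ∧
      (∏ a ∈ s, f a).coeff (∑ a ∈ s, m a) = ∏ a ∈ s, (f a).coeff (m a) := by
  classical
  induction s using Finset.induction_on with
  | empty => simp
  | @insert a s ha ih =>
    obtain ⟨i1, i2⟩ := ih fun b hb => h b (mem_insert_of_mem hb)
    rw [prod_insert ha, sum_insert ha, prod_insert ha]
    have := h a (mem_insert_self a s)
    exact ⟨natDegree_mul_le.trans (add_le_add this i1),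
      by rw [coeff_mul_add_eq_of_natDegree_le this i1, i2]⟩

/-- The determinant of top coefficients. -/
theorem coeff_det_top {M : Matrix ι ι ℂ[X]} (e : ι → ℕ) (h : ∀ a b, (M a b).natDegree ≤ e a + e b) :
    M.det.coeff (∑ a, 2 * e a) = (Matrix.of fun a b => (M a b).coeff (e a + e b)).det := by
  rw [det_apply', det_apply', finsetSum_coeff]
  refine sum_congr rfl fun σ _ => ?_
  have hs : ∑ a, (e (σ a) + e a) = ∑ a, 2 * e a := by
    rw [sum_add_distrib, Equiv.sum_comp σ e, ← sum_add_distrib]
    exact sum_congr rfl fun a _ => by ring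
  rw [← hs, coeff_intCast_mul, (natDegree_prod_le' univ (fun a => M (σ a) a) (fun a => e (σ a) + e a)
    fun a _ => h _ _).2]
  rfl

/-- The degree step. -/
theorem degree_step {M : Matrix ι ι ℂ[X]} (h : PsdLine M) (hdet : M.det.natDegree = 0)
    (hne : ∃ a, (M a a).natDegree ≠ 0) :
    ∃ M₁ : Matrix ι ι ℂ[X], PsdLine M₁ ∧ M₁.det = M.det ∧ (Factors M₁ → Factors M) ∧
      ((∃ a, M₁ a a = 0) ∨ ∑ a, (M₁ a a).natDegree < ∑ a, (M a a).natDegree) := by
  set e : ι → ℕ := fun a => (M a a).natDegree / 2
  set H : Matrix ι ι ℂ := Matrix.of fun a b => (M a b).coeff (e a + e b)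
  have hH : H.det = 0 := by
    rw [← coeff_det_top e h.degree_le]
    refine coeff_eq_zero_of_natDegree_lt ?_
    obtain ⟨a, ha⟩ := hne
    have h1 := single_le_sum (f := fun b => 2 * e b) (fun b _ => Nat.zero_le _) (mem_univ a)
    have := h.even a
    simp only [e] at h1 ⊢
    omega
  obtain ⟨c, hc0, hc⟩ := exists_mulVec_eq_zero_iff.2 hH
  obtain ⟨i, hi, hmax⟩ := (univ.filter fun a => c a ≠ 0).exists_max_image e (by
    obtain ⟨a, ha⟩ := Function.ne_iff.1 hc0
    exact ⟨a, by simpa using ha⟩)
  simp only [mem_filter, mem_univ, true_and] at hi hmax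
  set c' : ι → ℂ := (c i)⁻¹ • c
  have hc' : H *ᵥ c' = 0 := by simp [c', mulVec_smul, hc]
  set u : ι → ℂ[X] := fun a => C (c' a) * X ^ (e i - e a)
  set T := shear i u
  have hT : T.det = 1 := by
    simp only [T, det_shear, u, Nat.sub_self, pow_zero, mul_one, show c' i = 1 by simp [c', hi], C_1]
  set M₁ := pstar T * M * T with hM₁
  refine ⟨M₁, h.congr T, det_congr hT, Factors.of_congr hT, ?_⟩
  have hoff : ∀ b, b ≠ i → M₁ b b = M b b := by
    intro b hb
    simp [hM₁, Matrix.mul_apply, T, shear, pstar, hb, Matrix.one_apply, apply_ite,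
      Finset.sum_ite_eq', ite_mul]
  have hii : M₁ i i = ∑ b, (∑ a, (C (conj (c' a)) * X ^ (e i - e a)) * M a b) * u b := by
    simp [hM₁, Matrix.mul_apply, T, shear, pstar, u]
  have hterm : ∀ a b, ((C (conj (c' a)) * X ^ (e i - e a)) * M a b * u b).natDegree ≤ 2 * e i ∧
      ((C (conj (c' a)) * X ^ (e i - e a)) * M a b * u b).coeff (2 * e i) =
        conj (c' a) * (H a b * c' b) := by
    intro a b
    by_cases ha : c a = 0
    · simp [c', ha]
    by_cases hb : c b = 0
    · simp [u, c', hb]
    have h1 := hmax a ha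
    have h2 := hmax b hb
    have hd1 : (C (conj (c' a)) * X ^ (e i - e a)).natDegree ≤ e i - e a :=
      natDegree_C_mul_X_pow_le _ _
    have hd2 : (u b).natDegree ≤ e i - e b := natDegree_C_mul_X_pow_le _ _
    have hd12 := natDegree_mul_le.trans (add_le_add hd1 (h.degree_le a b))
    rw [show 2 * e i = (e i - e a + (e a + e b)) + (e i - e b) by omega]
    refine ⟨natDegree_mul_le.trans (add_le_add hd12 hd2), ?_⟩
    rw [coeff_mul_add_eq_of_natDegree_le hd12 hd2,
      coeff_mul_add_eq_of_natDegree_le hd1 (h.degree_le a b), coeff_C_mul_X_pow, coeff_C_mul_X_pow,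
      if_pos rfl, if_pos rfl, mul_assoc]
    rfl
  have hle : (M₁ i i).natDegree ≤ 2 * e i := by
    simp only [hii, sum_mul]
    exact natDegree_sum_le_of_forall_le _ _ fun b _ =>
      natDegree_sum_le_of_forall_le _ _ fun a _ => (hterm a b).1
  have hco : (M₁ i i).coeff (2 * e i) = 0 := by
    simp only [hii, sum_mul, finsetSum_coeff, (hterm _ _).2]
    rw [sum_comm]
    refine sum_eq_zero fun a _ => ?_
    rw [← mul_sum]
    exact mul_eq_zero_of_right _ (congrFun hc' a)
  by_cases h0 : M₁ i i = 0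
  · exact Or.inl ⟨i, h0⟩
  refine Or.inr (sum_lt_sum (fun b _ => ?_) ⟨i, mem_univ i, ?_⟩)
  · rcases eq_or_ne b i with rfl | hb
    · have := h.even b; simp only [e] at hle; omega
    · rw [hoff b hb]
  · have hne' : (M₁ i i).natDegree ≠ 2 * e i := fun heq => h0 (leadingCoeff_eq_zero.1 (by
      rw [leadingCoeff, heq]; exact hco))
    have := h.even i
    simp only [e] at hle hne'
    omega

/-- The factorisation theorem. -/
theorem factors : ∀ {ι : Type} [Fintype ι] [DecidableEq ι] {M : Matrix ι ι ℂ[X]},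
    PsdLine M → Factors M := by
  intro ι
  intros
  rename_i f d M h
  induction hN : Fintype.card ι using Nat.strong_induction_on generalizing ι with
  | _ N ihN =>
  subst hN
  induction hD : M.det.natDegree using Nat.strong_induction_on generalizing M with
  | _ D ihD =>
  subst hD
  induction hS : ∑ a, (M a a).natDegree using Nat.strong_induction_on generalizing M with
  | _ S ihS =>
  subst hS
  have hzero : ∀ {M : Matrix ι ι ℂ[X]}, PsdLine M → ∀ a, M a a = 0 → Factors M := by
    intro M h a ha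
    let g : {b : ι // b ≠ a} → ι := Subtype.val
    obtain ⟨G, hG⟩ := ihN _ (Fintype.card_subtype_lt (x := a) (by simp))
      (M := M.submatrix g g) (fun t => (h t).submatrix g) rfl
    refine ⟨Matrix.of fun b c => if hb : b ≠ a then if hc : c ≠ a then G ⟨b, hb⟩ ⟨c, hc⟩ else 0
      else 0, fun t => ?_⟩
    ext b c
    rw [Matrix.mul_apply]
    by_cases hb : b = a
    · subst hb; simp [at', (h.row_zero ha c).1]
    by_cases hc : c = a
    · subst hc; simp [at', (h.row_zero ha b).2]
    have := congrFun (congrFun (hG t) ⟨b, hb⟩) ⟨c, hc⟩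
    simp only [Matrix.mul_apply, at', Matrix.map_apply, Matrix.submatrix_apply, g,
      conjTranspose_apply] at this
    simp only [at', Matrix.map_apply, conjTranspose_apply, Matrix.of_apply]
    rw [this, ← Fintype.sum_subtype_add_sum_subtype (fun x => x ≠ a),
      Fintype.sum_eq_zero (fun x : {x // ¬x ≠ a} => _) fun x => by simp [dif_neg x.2], add_zero]
    exact sum_congr rfl fun x _ => by
      simp only [ne_eq, hb, hc, not_false_eq_true, dif_pos, dif_pos x.2]
  by_cases hz : ∃ a, M a a = 0
  · exact hzero h hz.choose hz.choose_spec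
  by_cases hdet : M.det.natDegree = 0
  swap
  · have hM : M.det ≠ 0 := fun h0 => hdet (by rw [h0, natDegree_zero])
    obtain ⟨z, hz'⟩ := IsAlgClosed.exists_root M.det (by
      rw [degree_eq_natDegree hM]; exact_mod_cast hdet)
    obtain ⟨Q, hQ, hlt, hf⟩ := root_step h hM hz'
    exact hf (ihD _ hlt hQ rfl)
  by_cases hne : ∃ a, (M a a).natDegree ≠ 0
  · obtain ⟨M₁, h₁, hd₁, hf, hcase⟩ := degree_step h hdet hne
    refine hf ?_
    rcases hcase with ⟨a, ha⟩ | hlt
    · exact hzero h₁ a ha
    · exact ihS _ hlt h₁ (fun m hm => ihD m (by rwa [hd₁] at hm)) rfl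
  push Not at hne
  obtain ⟨B, hB⟩ : ∃ B : Matrix ι ι ℂ, at' M 0 = Bᴴ * B := by
    open scoped MatrixOrder in
    exact CStarAlgebra.nonneg_iff_eq_star_mul_self.1 (h 0).nonneg
  refine ⟨B.map C, fun t => ?_⟩
  have hB' : at' (B.map C) t = B := by ext; simp [at']
  rw [hB', ← hB]
  ext a b
  have hd := h.degree_le a b
  rw [hne, hne] at hd
  simp only [at', Matrix.map_apply]
  rw [eq_C_of_natDegree_le_zero hd, eval_C, eval_C]

/-- The factorisation with its column degrees. -/
theorem factors_degree {ι : Type} [Fintype ι] [DecidableEq ι] {M : Matrix ι ι ℂ[X]}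
    (h : PsdLine M) : ∃ G : Matrix ι ι ℂ[X],
      (∀ t : ℝ, at' M t = (at' G t)ᴴ * at' G t) ∧ ∀ r i, 2 * (G r i).natDegree ≤ (M i i).natDegree := by
  obtain ⟨G, hG⟩ := factors h
  refine ⟨G, hG, fun r i => ?_⟩
  have := natDegree_sq_le (P := G r i) (Q := M i i) (R := 1) fun t => by
    have e := congrFun (congrFun (hG t) i) i
    simp only [Matrix.mul_apply, at', Matrix.map_apply, conjTranspose_apply] at e
    rw [e, eval_one, Complex.one_re, mul_one, Complex.re_sum]
    refine le_of_eq_of_le ?_ (single_le_sum (f := fun x => (star ((G x i).eval (t : ℂ)) *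
      (G x i).eval (t : ℂ)).re) (fun x _ => ?_) (mem_univ r))
    · simp [Complex.sq_norm, Complex.normSq_apply]
    · simp; nlinarith [sq_nonneg ((G x i).eval (t : ℂ)).re, sq_nonneg ((G x i).eval (t : ℂ)).im]
  simpa using this

end Vale.Agent.P256.Cubic
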