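import Mathlib

/-!
Factorisation of univariate polynomial matrices that are positive semidefinite on the real line.
-/

namespace Vale.Agent.P256.Cubic

open Polynomial Matrix Filter Topology Finset ComplexConjugate
open scoped ComplexOrder

variable {ι : Type*} [Fintype ι] [DecidableEq ι]

/-- The value at a real point. -/
noncomputable def at' (M : Matrix ι ι ℂ[X]) (t : ℝ) : Matrix ι ι ℂ := M.map (eval (t : ℂ))

/-- Positive semidefinite on the real line. -/
def PsdLine (M : Matrix ι ι ℂ[X]) : Prop := ∀ t : ℝ, (at' M t).PosSemidef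

/-- A factorisation on the real line. -/
def Factors (M : Matrix ι ι ℂ[X]) : Prop :=
  ∃ G : Matrix ι ι ℂ[X], ∀ t : ℝ, at' M t = (at' G t)ᴴ * at' G t

theorem at'_mul (A B : Matrix ι ι ℂ[X]) (t : ℝ) : at' (A * B) t = at' A t * at' B t :=
  (evalRingHom (t : ℂ)).mapMatrix.map_mul A B

/-- The conjugate transpose of a polynomial matrix. -/
noncomputable def pstar (M : Matrix ι ι ℂ[X]) : Matrix ι ι ℂ[X] :=
  Matrix.of fun i j => (M j i).map (starRingEnd ℂ)

theorem eval_conj_map (P : ℂ[X]) (z : ℂ) :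
    (P.map (starRingEnd ℂ)).eval z = conj (P.eval (conj z)) := by
  induction P using Polynomial.induction_on with
  | C a => simp
  | add p q hp hq => simp [hp, hq]
  | monomial k a _ => simp

omit [Fintype ι] [DecidableEq ι] in
theorem at'_pstar (M : Matrix ι ι ℂ[X]) (t : ℝ) : at' (pstar M) t = (at' M t)ᴴ := by
  ext i j; simp [at', pstar, eval_conj_map]

omit [Fintype ι] [DecidableEq ι] in
theorem eq_of_eval_real {P Q : ℂ[X]} (h : ∀ t : ℝ, P.eval (t : ℂ) = Q.eval (t : ℂ)) : P = Q := by
  refine Polynomial.eq_of_infinite_eval_eq _ _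
    (Set.Infinite.mono (s := Set.range fun t : ℝ => (t : ℂ)) ?_
      (Set.infinite_range_of_injective Complex.ofReal_injective))
  rintro _ ⟨t, rfl⟩; exact h t

omit [Fintype ι] [DecidableEq ι] in
theorem PsdLine.herm {M : Matrix ι ι ℂ[X]} (h : PsdLine M) (i j : ι) :
    M j i = (M i j).map (starRingEnd ℂ) := by
  refine eq_of_eval_real fun t => ?_
  have := (h t).isHermitian.apply j i
  simp only [at', Matrix.map_apply] at this
  rw [eval_conj_map, Complex.conj_ofReal]
  simpa using this.symm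

omit [Fintype ι] [DecidableEq ι] in
theorem PsdLine.diag_im {M : Matrix ι ι ℂ[X]} (h : PsdLine M) (i : ι) (t : ℝ) :
    ((M i i).eval (t : ℂ)).im = 0 ∧ 0 ≤ ((M i i).eval (t : ℂ)).re := by
  have := (h t).diag_nonneg (i := i)
  simp only [at', Matrix.map_apply, Complex.le_def] at this
  exact ⟨this.2.symm, this.1⟩

theorem PsdLine.congr {M : Matrix ι ι ℂ[X]} (h : PsdLine M) (S : Matrix ι ι ℂ[X]) :
    PsdLine (pstar S * M * S) := fun t => by
  rw [at'_mul, at'_mul, at'_pstar]; exact (h t).conjTranspose_mul_mul_same _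

theorem Factors.congr {M M₁ : Matrix ι ι ℂ[X]} (S : Matrix ι ι ℂ[X])
    (hS : ∀ t : ℝ, at' M t = (at' S t)ᴴ * at' M₁ t * at' S t) (h : Factors M₁) : Factors M := by
  obtain ⟨G, hG⟩ := h
  refine ⟨G * S, fun t => ?_⟩
  rw [hS, hG, at'_mul, conjTranspose_mul]
  simp only [Matrix.mul_assoc]

theorem det_pstar (S : Matrix ι ι ℂ[X]) : (pstar S).det = S.det.map (starRingEnd ℂ) := by
  rw [← det_transpose S]
  exact ((mapRingHom (starRingEnd ℂ)).map_det Sᵀ).symm

/-! ### Growth -/

/-- A polynomial divided by a power tends to the coefficient of that power. -/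
theorem tendsto_div_pow {P : ℂ[X]} {m : ℕ} (h : P.natDegree ≤ m) {l : Filter ℝ}
    (hl : Tendsto (fun t : ℝ => t⁻¹) l (𝓝 0)) (hne : ∀ᶠ t in l, t ≠ 0) :
    Tendsto (fun t : ℝ => P.eval (t : ℂ) / (t : ℂ) ^ m) l (𝓝 (P.coeff m)) := by
  have hg : Continuous fun s : ℝ => ∑ k ∈ range (m + 1), P.coeff k * (s : ℂ) ^ (m - k) := by fun_prop
  have h0 : ∑ k ∈ range (m + 1), P.coeff k * ((0 : ℝ) : ℂ) ^ (m - k) = P.coeff m := by
    rw [sum_eq_single m]
    · simp
    · intro k hk hkm
      have := mem_range.1 hk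
      simp [zero_pow (by omega : m - k ≠ 0)]
    · simp
  refine (((hg.tendsto' 0 _ h0).comp hl)).congr' (hne.mono fun t ht => ?_)
  have ht' : (t : ℂ) ≠ 0 := Complex.ofReal_ne_zero.2 ht
  simp only [Function.comp_apply]
  rw [eval_eq_sum_range' (Nat.lt_succ_of_le h), Finset.sum_div]
  refine sum_congr rfl fun k hk => ?_
  have := mem_range.1 hk
  rw [Complex.ofReal_inv, inv_pow, pow_sub₀ _ ht' (by omega)]
  field_simp

theorem hlim_top : Tendsto (fun t : ℝ => t⁻¹) atTop (𝓝 0) := tendsto_inv_atTop_zero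

theorem hlim_bot : Tendsto (fun t : ℝ => t⁻¹) atBot (𝓝 0) := tendsto_inv_atBot_zero

theorem ne_top : ∀ᶠ t : ℝ in atTop, t ≠ 0 := (eventually_gt_atTop 0).mono fun _ h => h.ne'

theorem ne_bot : ∀ᶠ t : ℝ in atBot, t ≠ 0 := (eventually_lt_atBot 0).mono fun _ h => h.ne

omit [Fintype ι] [DecidableEq ι] in
theorem PsdLine.even {M : Matrix ι ι ℂ[X]} (h : PsdLine M) (i : ι) :
    2 * ((M i i).natDegree / 2) = (M i i).natDegree := by
  by_contra hodd
  set d := (M i i).natDegree with hd
  have hd0 : d ≠ 0 := fun h0 => hodd (by rw [h0])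
  have hodd' : Odd d := Nat.odd_iff.2 (by omega)
  have e : ∀ t : ℝ, (M i i).eval (t : ℂ) / (t : ℂ) ^ d =
      (((((M i i).eval (t : ℂ)).re / t ^ d : ℝ)) : ℂ) := fun t => by
    have := (h.diag_im i t).1
    rw [Complex.ofReal_div, Complex.ofReal_pow]
    congr 1
    exact Complex.ext rfl (by simpa using this)
  set c := (M i i).coeff d
  have htop : Tendsto (fun t : ℝ => (((M i i).eval (t : ℂ)).re / t ^ d : ℝ)) atTop (𝓝 c.re) := by
    have := (Complex.continuous_re.tendsto _).comp (tendsto_div_pow le_rfl hlim_top ne_top (P := M i i))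
    refine this.congr fun t => ?_
    simp only [Function.comp_apply, ← hd, e, Complex.ofReal_re]
  have hbot : Tendsto (fun t : ℝ => (((M i i).eval (t : ℂ)).re / t ^ d : ℝ)) atBot (𝓝 c.re) := by
    have := (Complex.continuous_re.tendsto _).comp (tendsto_div_pow le_rfl hlim_bot ne_bot (P := M i i))
    refine this.congr fun t => ?_
    simp only [Function.comp_apply, ← hd, e, Complex.ofReal_re]
  have him : c.im = 0 := by
    have := (Complex.continuous_im.tendsto _).comp (tendsto_div_pow le_rfl hlim_top ne_top (P := M i i))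
    refine tendsto_nhds_unique this (tendsto_const_nhds.congr fun t => ?_)
    simp only [Function.comp_apply, ← hd, e, Complex.ofReal_im]
  have h1 : 0 ≤ c.re := ge_of_tendsto htop
    ((eventually_gt_atTop 0).mono fun t ht => div_nonneg (h.diag_im i t).2 (by positivity))
  have h2 : c.re ≤ 0 := le_of_tendsto hbot
    ((eventually_lt_atBot 0).mono fun t ht => div_nonpos_of_nonneg_of_nonpos (h.diag_im i t).2
      (hodd'.pow_neg ht).le)
  have hc : c = 0 := Complex.ext (le_antisymm h2 h1) him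
  have : (M i i).leadingCoeff = 0 := hc
  rw [leadingCoeff_eq_zero] at this
  rw [hd, this, natDegree_zero] at hd0
  exact hd0 rfl

omit [Fintype ι] [DecidableEq ι] in
theorem PsdLine.entry_sq {M : Matrix ι ι ℂ[X]} (h : PsdLine M) (i j : ι) (t : ℝ) :
    ‖(M i j).eval (t : ℂ)‖ ^ 2 ≤ ((M i i).eval (t : ℂ)).re * ((M j j).eval (t : ℂ)).re := by
  rcases eq_or_ne i j with rfl | hij
  · rw [Complex.sq_norm, Complex.normSq_apply, (h.diag_im i t).1]; simp
  have h2 := ((h t).submatrix ![i, j]).det_nonneg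
  rw [Matrix.det_fin_two] at h2
  simp only [at', Matrix.submatrix_apply, Matrix.map_apply, Matrix.cons_val_zero,
    Matrix.cons_val_one] at h2
  rw [h.herm i j, eval_conj_map, Complex.conj_ofReal, Complex.mul_conj, ← Complex.sq_norm] at h2
  have h3 := (Complex.le_def.1 h2).1
  simp [(h.diag_im i t).1, (h.diag_im j t).1, -Complex.ofReal_pow] at h3
  linarith

/-- A bound on the square of the values bounds the degree. -/
theorem natDegree_sq_le {P Q R : ℂ[X]}
    (h : ∀ t : ℝ, ‖P.eval (t : ℂ)‖ ^ 2 ≤ (Q.eval (t : ℂ)).re * (R.eval (t : ℂ)).re) :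
    2 * P.natDegree ≤ Q.natDegree + R.natDegree := by
  by_contra hlt
  push Not at hlt
  set m := P.natDegree
  set a := Q.natDegree
  set b := R.natDegree
  have lhs : Tendsto (fun t : ℝ => ‖P.eval (t : ℂ)‖ ^ 2 / t ^ (2 * m)) atTop
      (𝓝 (‖P.coeff m‖ ^ 2)) := by
    refine (((continuous_norm.pow 2).tendsto _).comp
      (tendsto_div_pow (le_refl m) hlim_top ne_top)).congr' ((eventually_gt_atTop 0).mono
      fun t ht => ?_)
    simp [norm_pow, div_pow, pow_mul, abs_of_pos ht]
    ring
  have li := (Complex.continuous_re.tendsto _).comp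
    (tendsto_div_pow (le_refl a) hlim_top ne_top (P := Q))
  have lj := (Complex.continuous_re.tendsto _).comp
    (tendsto_div_pow (le_refl b) hlim_top ne_top (P := R))
  have l3 : Tendsto (fun t : ℝ => t⁻¹ ^ (2 * m - (a + b))) atTop (𝓝 0) := by
    simpa [zero_pow (by omega : 2 * m - (a + b) ≠ 0)] using hlim_top.pow (2 * m - (a + b))
  have rhs : Tendsto (fun t : ℝ =>
      (Q.eval (t : ℂ)).re * (R.eval (t : ℂ)).re / t ^ (2 * m)) atTop (𝓝 0) := by
    have := (li.mul lj).mul l3
    rw [mul_zero] at this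
    refine this.congr' ((eventually_gt_atTop 0).mono fun t ht => ?_)
    simp only [Function.comp_apply, ← Complex.ofReal_pow, Complex.div_ofReal_re]
    rw [inv_pow, pow_sub₀ _ ht.ne' (by omega), pow_add]
    field_simp
  have hz : ‖P.coeff m‖ ^ 2 ≤ 0 := le_of_tendsto_of_tendsto lhs rhs
    ((eventually_gt_atTop 0).mono fun t ht =>
      div_le_div_of_nonneg_right (h t) (by positivity))
  have hc : P.coeff m = 0 := norm_eq_zero.1 (by nlinarith [norm_nonneg (P.coeff m)])
  have : P.leadingCoeff = 0 := hc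
  rw [leadingCoeff_eq_zero] at this
  simp [m, this] at hlt

omit [Fintype ι] [DecidableEq ι] in
theorem PsdLine.degree_le {M : Matrix ι ι ℂ[X]} (h : PsdLine M) (i j : ι) :
    (M i j).natDegree ≤ (M i i).natDegree / 2 + (M j j).natDegree / 2 := by
  have := natDegree_sq_le (h.entry_sq i j)
  have := h.even i
  have := h.even j
  omega

omit [Fintype ι] [DecidableEq ι] in
theorem PsdLine.row_zero {M : Matrix ι ι ℂ[X]} (h : PsdLine M) {i : ι} (hi : M i i = 0) (j : ι) :
    M i j = 0 ∧ M j i = 0 := by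
  have h0 : M i j = 0 := eq_of_eval_real fun t => by
    have := h.entry_sq i j t
    rw [hi] at this
    simp at this ⊢
    exact this
  exact ⟨h0, by rw [h.herm i j, h0, Polynomial.map_zero]⟩

end Vale.Agent.P256.Cubic
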