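import Vale.Agent.P256.Cubic.Rank

/-!
An orthogonal frame when the polar quadric factors through three variables.
-/

namespace Vale.Agent.P256.Cubic

open MvPolynomial Finset Conical Matrix Module

variable {n : ℕ} {p : MvPolynomial (Fin n) ℝ} {e v : Fin n → ℝ}

/-- A form pulled back along `π` is orthogonal to the kernel of `π`. -/
theorem ker_lineal {π : (Fin n → ℝ) →ₗ[ℝ] Fin 3 → ℝ} {Q : (Fin 3 → ℝ) → ℝ}
    (hQ : ∀ x, Hb p v x x = Q (π x)) {x : Fin n → ℝ} (hx : π x = 0) (w : Fin n → ℝ) :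
    Hb p v x w = 0 := by
  have key : ∀ y, Hb p v (y + x) (y + x) = Hb p v y y := fun y => by
    rw [hQ, hQ, map_add, hx, add_zero]
  have h0 := key 0
  simp only [zero_add, map_zero] at h0
  have h1 := key w
  simp only [map_add, LinearMap.add_apply, Hb_symm (p := p) (v := v) w x, h0] at h1
  linarith

/-- The lift when the polar quadric factors through three variables. -/
theorem Sing3.shadow_rank (S : Sing3 p e v) (π : (Fin n → ℝ) →ₗ[ℝ] Fin 3 → ℝ)
    (Q : (Fin 3 → ℝ) → ℝ) (hQ : ∀ x, Hb p v x x = Q (π x)) : IsShadow (cone p e) := by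
  have L := S.lor
  have hqe := L.pos
  obtain ⟨u, heu, hu⟩ := L.exists_neg hqe (by
    obtain ⟨x, hx⟩ := S.neg
    exact ⟨x, by rw [Hb_self]; exact hx⟩)
  set c := Real.sqrt (Hb p v e e)
  have hc : 0 < c := Real.sqrt_pos.2 hqe
  have hc2 : c * c = Hb p v e e := Real.mul_self_sqrt hqe.le
  set E := c⁻¹ • e
  have hEa : ∀ y, Hb p v E y = c⁻¹ * Hb p v e y := fun y => by simp [E]
  have hE : Hb p v E E = 1 := by
    rw [hEa]; simp [E, ← hc2]; field_simp
  have hEy : ∀ y, 0 < Hb p v e y → 0 < Hb p v E y := fun y hy => by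
    rw [hEa]; positivity
  have heE : 0 < Hb p v e E := by simp only [E, map_smul, smul_eq_mul]; positivity
  have hzero : ∀ y, Hb p v E y = 0 → Hb p v e y = 0 := fun y hy => by
    rw [hEa] at hy; simpa [hc.ne'] using hy
  have norm : ∀ w, Hb p v w w < 0 → ∃ a : ℝ, a ≠ 0 ∧ Hb p v (a • w) (a • w) = -1 := fun w hw => by
    refine ⟨(Real.sqrt (-Hb p v w w))⁻¹, inv_ne_zero (Real.sqrt_pos.2 (neg_pos.2 hw)).ne', ?_⟩
    have h2 := Real.mul_self_sqrt (neg_pos.2 hw).le
    simp only [map_smul, LinearMap.smul_apply, smul_eq_mul]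
    rw [← mul_assoc, ← mul_inv, h2, inv_neg, neg_mul, inv_mul_cancel₀ hw.ne]
  obtain ⟨a, -, hU₁⟩ := norm u hu
  set U₁ := a • u
  have he1 : Hb p v e U₁ = 0 := by simp [U₁, heu]
  have h1 : Hb p v E U₁ = 0 := by rw [hEa, he1, mul_zero]
  by_cases h3 : ∃ w, Hb p v E w = 0 ∧ Hb p v U₁ w = 0 ∧ Hb p v w w < 0
  swap
  · refine S.shadow_two E U₁ hE hEy h1 hU₁ heE he1 fun y hy hy1 w => ?_
    push Not at h3
    exact L.null_perp hqe (hzero y hy) (le_antisymm (L.perp y (hzero y hy)) (h3 y hy hy1)) w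
  obtain ⟨u₂, hE2, h12', hu₂⟩ := h3
  obtain ⟨b, -, hU₂⟩ := norm u₂ hu₂
  set U₂ := b • u₂
  have h2 : Hb p v E U₂ = 0 := by simp [U₂, hE2]
  have h12 : Hb p v U₁ U₂ = 0 := by simp [U₂, h12']
  refine S.shadow_three E U₁ U₂ hE hEy h1 h2 h12 hU₁ hU₂ heE he1 (hzero _ h2)
    fun y hy hy1 hy2 w => ?_
  let V : Fin 3 → Fin n → ℝ := ![E, U₁, U₂]
  have horth : ∀ i j, Hb p v (V i) (V j) = if i = j then (if i = 0 then 1 else -1) else 0 := by
    intro i j
    fin_cases i <;> fin_cases j <;>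
      simp [V, hE, h1, h2, h12, hU₁, hU₂, Hb_symm (p := p) (v := v) U₁ E,
        Hb_symm (p := p) (v := v) U₂ E, Hb_symm (p := p) (v := v) U₂ U₁]
  have hli : LinearIndependent ℝ fun i => π (V i) := by
    rw [Fintype.linearIndependent_iff]
    intro g hg j
    have hker : π (∑ i, g i • V i) = 0 := by simpa using hg
    have h := ker_lineal hQ hker (V j)
    simp only [map_sum, map_smul, LinearMap.coe_sum, Finset.sum_apply, LinearMap.smul_apply,
      smul_eq_mul, horth, mul_ite, mul_zero, sum_ite_eq', mem_univ, if_true] at h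
    by_contra hne
    split_ifs at h <;> simp_all
  have hspan := hli.span_eq_top_of_card_eq_finrank (by simp)
  have hmem : π y ∈ Submodule.span ℝ (Set.range fun i => π (V i)) := by rw [hspan]; trivial
  obtain ⟨g, hg⟩ := (Submodule.mem_span_range_iff_exists_fun ℝ).1 hmem
  set z := y - ∑ i, g i • V i
  have hz : π z = 0 := by simp [z, hg]
  have hzl := fun x => ker_lineal hQ hz x
  have hg0 : ∀ j, g j = 0 := by
    intro j
    have h := hzl (V j)
    have hyj : Hb p v y (V j) = 0 := by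
      rw [Hb_symm]; fin_cases j <;> simp [V, hy, hy1, hy2]
    simp only [z, map_sub, LinearMap.sub_apply, hyj, map_sum, map_smul, LinearMap.coe_sum,
      Finset.sum_apply, LinearMap.smul_apply, smul_eq_mul, horth, mul_ite, mul_zero, sum_ite_eq',
      mem_univ, if_true, zero_sub, neg_eq_zero] at h
    by_contra hne
    split_ifs at h <;> simp_all
  simpa [z, hg0] using hzl w

end Vale.Agent.P256.Cubic
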