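import Vale.Agent.P256.Cubic.Moment

/-!
The part of the cone in the lineality of the polar quadric.
-/

namespace Vale.Agent.P256.Cubic

open MvPolynomial Finset Conical Matrix Filter Topology

variable {n k : ℕ}

namespace Node

variable {p : MvPolynomial (Fin n) ℝ} {e v : Fin n → ℝ} (D : Node p e v k)
include D

/-- On the lineality the residual vanishes and its differential at `e` is nonnegative. -/
theorem lineal {x : Fin n → ℝ} (hx : ∀ w, Hb p v x w = 0) :
    D.res x = 0 ∧ 0 ≤ D.dres x e := by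
  have L := D.lor
  have hxR : ∀ w, Hb p v w x = 0 := fun w => by rw [L.symm]; exact hx w
  have key : ∀ y : Fin n → ℝ, Hb p v y y = 0 → 0 < Hb p v e y →
      D.res x = 0 ∧ 0 ≤ D.dres x y := by
    intro y hy hey
    have hτy := D.hτ y hy hey
    have hpos : ∀ s : ℝ, 0 ≤ s * D.res (s • y + x) := by
      intro s
      have h0 : Hb p v (s • y + x) (s • y + x) = 0 := by
        simp only [map_add, map_smul, LinearMap.add_apply, LinearMap.smul_apply, smul_eq_mul, hy,
          hx, hxR]
        ring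
      have h := D.sos (s • y + x)
      rw [h0, zero_mul, add_zero, map_add, map_smul, L.tau_lin D.hneg D.hτ hx, add_zero,
        smul_eq_mul] at h
      have h' : 0 ≤ s * D.τ y * D.res (s • y + x) := h ▸ sum_nonneg fun _ _ => sq_nonneg _
      exact nonneg_of_mul_nonneg_left (le_of_le_of_eq h' (by ring)) hτy
    have hd : D.dres x y = -lc p 1 (D.proj x) (D.proj y) := D.dres_apply x y
    simp only [D.res_line, ← hd] at hpos
    set a0 := D.res x
    set a1 := D.dres x y
    set a2 := D.dres y x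
    set a3 := D.res y
    have hf : Continuous fun s : ℝ => s ^ 3 * a3 + s ^ 2 * a2 + s * a1 + a0 := by fun_prop
    have h0 : a0 = 0 := by
      have hp' : 0 ≤ a0 := by
        refine ge_of_tendsto (x := 𝓝[>] (0 : ℝ)) (f := fun s : ℝ => s ^ 3 * a3 + s ^ 2 * a2 + s * a1 + a0) ?_
          (eventually_nhdsWithin_of_forall (a := (0:ℝ)) fun s hs =>
            nonneg_of_mul_nonneg_right (hpos s) hs)
        simpa using (hf.tendsto 0).mono_left nhdsWithin_le_nhds
      have hn' : a0 ≤ 0 := by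
        refine le_of_tendsto (x := 𝓝[<] (0 : ℝ)) (f := fun s : ℝ => s ^ 3 * a3 + s ^ 2 * a2 + s * a1 + a0) ?_
          (eventually_nhdsWithin_of_forall (a := (0:ℝ)) fun s hs => by
            have := hpos s
            have hs' : s < 0 := hs
            nlinarith)
        simpa using (hf.tendsto 0).mono_left nhdsWithin_le_nhds
      linarith
    refine ⟨h0, ?_⟩
    refine ge_of_tendsto (x := 𝓝[>] (0 : ℝ))
      (f := fun s : ℝ => s ^ 2 * a3 + s * a2 + a1) ?_
      (eventually_nhdsWithin_of_forall (a := (0:ℝ)) fun s hs => by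
        have h := hpos s
        have hs' : (0:ℝ) < s := hs
        rw [h0] at h
        refine nonneg_of_mul_nonneg_right (le_of_le_of_eq h ?_) (pow_pos hs' 2)
        ring)
    have hg : Continuous fun s : ℝ => s ^ 2 * a3 + s * a2 + a1 := by fun_prop
    simpa using (hg.tendsto 0).mono_left nhdsWithin_le_nhds
  obtain ⟨u, heu, hu⟩ := L.exists_neg L.pos D.hneg
  set s := Real.sqrt (-Hb p v u u / Hb p v e e)
  have hpos : 0 < -Hb p v u u / Hb p v e e := div_pos (by linarith) L.pos
  have hs : s ^ 2 = -Hb p v u u / Hb p v e e := Real.sq_sqrt hpos.le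
  have hs0 : 0 < s := Real.sqrt_pos.2 hpos
  have hnull : ∀ σ : ℝ, σ ^ 2 = 1 → Hb p v (s • e + σ • u) (s • e + σ • u) = 0 ∧
      0 < Hb p v e (s • e + σ • u) := by
    intro σ hσ
    refine ⟨?_, by simp [heu, hs0, L.pos]⟩
    rw [L.expand, hs, heu, hσ]; field_simp [L.pos.ne']; ring
  obtain ⟨h1, h1'⟩ := key _ (hnull 1 (by norm_num)).1 (hnull 1 (by norm_num)).2
  obtain ⟨-, h2'⟩ := key _ (hnull (-1) (by norm_num)).1 (hnull (-1) (by norm_num)).2
  refine ⟨h1, ?_⟩
  simp only [map_add, map_smul, smul_eq_mul] at h1' h2'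
  nlinarith

/-- The first two coefficients on the lineality. -/
theorem lc_lineal {x : Fin n → ℝ} (hx : ∀ w, Hb p v x w = 0) :
    lc p 0 x e = 0 ∧ lc p 1 x e = -D.dres x e := by
  have hd := D.hb.hom
  obtain ⟨h0, -⟩ := D.lineal hx
  have e0 : lc p 0 x e = 0 := by
    rw [lc_zero, D.eval_eq, hx, h0]; ring
  refine ⟨e0, ?_⟩
  have key : ∀ t : ℝ, ∑ j ∈ range 4, lc p j x e * t ^ j =
      (D.l x + t * D.l e) * (t ^ 2 * Hb p v e e) -
        (t ^ 3 * D.res e + t ^ 2 * D.dres e x + t * D.dres x e) := by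
    intro t
    have hq : Hb p v (t • e + x) (t • e + x) = t ^ 2 * Hb p v e e := by
      simp only [map_add, map_smul, LinearMap.add_apply, LinearMap.smul_apply, smul_eq_mul, hx,
        D.lor.symm e x]
      ring
    rw [← eval_eq_sum_lc hd.totalDegree_le, D.eval_eq, add_comm x, D.res_line, h0,
      ← D.dres_apply, hq]
    simp only [map_add, map_smul, smul_eq_mul, hx, D.lor.symm e x]
    ring
  have k1 := key 1
  have k2 := key (-1)
  have k3 := key 2
  simp [sum_range_succ, e0] at k1 k2 k3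
  linarith

/-- The subspace carrying the cone part in the lineality. -/
noncomputable def lsub : Submodule ℝ (Fin n → ℝ) where
  carrier := {x | (∀ w, Hb p v x w = 0) ∧ lc p 1 x e = 0}
  zero_mem' := by
    refine ⟨fun w => by simp, ?_⟩
    have h := (D.lc_lineal (x := 0) fun w => by simp).2
    rw [h]; simp [dres_apply, lc_one]
    exact sum_eq_zero fun i _ => by
      have : lc p 1 (0 : Fin n → ℝ) (Pi.single i 1) = 0 := by
        rw [lc_reflect D.hb.hom (by norm_num), show (0 : Fin n → ℝ) = (0 : ℝ) • e by simp,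
          lc_scale D.hb.hom.totalDegree_le]
        simp
      rw [lc_one] at this
      simp [Pi.single_apply] at this
      simp [this]
  add_mem' := by
    rintro x y ⟨hx, hx1⟩ ⟨hy, hy1⟩
    have hxy : ∀ w, Hb p v (x + y) w = 0 := fun w => by simp [hx, hy]
    have hxy' : ∀ w, Hb p v (x - y) w = 0 := fun w => by simp [hx, hy]
    refine ⟨hxy, ?_⟩
    have hd := D.hb.hom
    have e1 : ∀ z, lc p 1 z e = Hb p e z z := fun z => by
      rw [Hb_self, lc_reflect hd (by norm_num)]
    have a := (D.lineal hxy).2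
    have b := (D.lineal hxy').2
    have a' := (D.lc_lineal hxy).2
    have b' := (D.lc_lineal hxy').2
    rw [e1] at hx1 hy1 a' b' ⊢
    simp only [map_add, map_sub, LinearMap.add_apply, LinearMap.sub_apply, hx1, hy1,
      Hb_symm (p := p) (v := e) y x] at a' b' ⊢
    linarith
  smul_mem' := by
    rintro c x ⟨hx, hx1⟩
    refine ⟨fun w => by simp [hx], ?_⟩
    rw [D.hb.lc_smul_left _ _ _ (by norm_num), hx1, mul_zero]

/-- The piece in the lineality. -/
noncomputable def lpiece : Piece n where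
  U := D.lsub
  σ := Unit
  L := D.lsub.subtype
  A := rayMap.comp ((∑ i, grad p e i • (LinearMap.proj i : (Fin n → ℝ) →ₗ[ℝ] ℝ)).comp
    D.lsub.subtype)
  symm := fun u => IsSymm.smul isSymm_one
    ((∑ i, grad p e i • (LinearMap.proj i : (Fin n → ℝ) →ₗ[ℝ] ℝ)) (D.lsub.subtype u))

theorem lpiece_iff (x : Fin n → ℝ) :
    x ∈ D.lpiece.set ↔ (∀ w, Hb p v x w = 0) ∧ lc p 1 x e = 0 ∧ 0 ≤ lc p 2 x e := by
  have hd := D.hb.hom
  have hlin : ∀ y, (∑ i, grad p e i • (LinearMap.proj i : (Fin n → ℝ) →ₗ[ℝ] ℝ)) y = lc p 2 y e :=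
    fun y => by
      rw [lc_reflect hd (by norm_num), lc_one]; simp [mul_comm]
  constructor
  · rintro ⟨⟨y, hy⟩, hpsd, rfl⟩
    refine ⟨hy.1, hy.2, ?_⟩
    have h : 0 ≤ (rayMap ((∑ i, grad p e i • (LinearMap.proj i : (Fin n → ℝ) →ₗ[ℝ] ℝ)) y)) () () :=
      Matrix.PosSemidef.diag_nonneg hpsd
    rw [hlin] at h
    change 0 ≤ lc p 2 y e
    simpa [rayMap] using h
  · rintro ⟨hx, hx1, hx2⟩
    refine ⟨⟨x, hx, hx1⟩, ?_, rfl⟩
    change (rayMap ((∑ i, grad p e i • (LinearMap.proj i : (Fin n → ℝ) →ₗ[ℝ] ℝ)) x)).PosSemidef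
    rw [hlin]
    exact PosSemidef.one.smul hx2

theorem lpiece_subset : D.lpiece.set ⊆ cone p e := by
  intro x hx
  obtain ⟨h, h1, h2⟩ := (D.lpiece_iff x).1 hx
  intro j
  rcases j with _ | _ | _ | _ | j
  · exact (D.lc_lineal h).1.ge
  · exact h1.ge
  · exact h2
  · rw [lc_top D.hb.hom]; exact D.hb.pos.le
  · rw [lc_eq_zero D.hb.hom.totalDegree_le (by omega)]

/-- Cone points orthogonal to `e` lie in the piece. -/
theorem lpiece_mem {x : Fin n → ℝ} (hx : x ∈ cone p e) (hex : Hb p v e x = 0) :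
    x ∈ D.lpiece.set := by
  have L := D.lor
  have hq : Hb p v x x = 0 := le_antisymm (L.perp x hex) (D.toSing3.q_cone hx)
  have hl := L.null_perp L.pos hex hq
  refine (D.lpiece_iff x).2 ⟨hl, le_antisymm ?_ (hx 1), hx 2⟩
  rw [(D.lc_lineal hl).2]
  linarith [(D.lineal hl).2]

end Node

end Vale.Agent.P256.Cubic
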