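import Vale.Agent.P256.Cubic.Lineal

/-!
The cone is the sum of the moment piece and the lineality piece.
-/

namespace Vale.Agent.P256.Cubic

open MvPolynomial Finset Conical Matrix Filter Topology

variable {n k : ℕ}

/-- A function squeezed by a bounded one has a limit along an ultrafilter. -/
theorem exists_lim {𝒰 : Ultrafilter ℝ} {f : ℝ → ℝ} {C : ℝ} (h : ∀ᶠ s in (𝒰 : Filter ℝ), |f s| ≤ C) :
    ∃ a, Tendsto f 𝒰 (𝓝 a) := by
  have hle : ((𝒰.map f : Ultrafilter ℝ) : Filter ℝ) ≤ 𝓟 (Set.Icc (-C) C) :=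
    le_principal_iff.2 (h.mono fun s hs => abs_le.1 hs)
  obtain ⟨a, -, ha⟩ := (isCompact_Icc (a := -C) (b := C)).ultrafilter_le_nhds (𝒰.map f) hle
  exact ⟨a, ha⟩

namespace Node

variable {p : MvPolynomial (Fin n) ℝ} {e v : Fin n → ℝ} (D : Node p e v k)

/-- A moving point mass. -/
noncomputable def ev (x : Fin n → ℝ) (f : Fun n) (s : ℝ) : ℝ :=
  f (x + s • e) / (Hb p v (x + s • e) (x + s • e) * D.τ (x + s • e))

/-- The functions whose moving point mass converges. -/
def conv (x : Fin n → ℝ) (𝒰 : Ultrafilter ℝ) : Submodule ℝ (Fun n) where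
  carrier := {f | ∃ a, Tendsto (D.ev x f) 𝒰 (𝓝 a)}
  zero_mem' := ⟨0, by
    have : D.ev x 0 = fun _ => 0 := by funext s; simp [ev]
    rw [this]; exact tendsto_const_nhds⟩
  add_mem' := by
    rintro f g ⟨a, ha⟩ ⟨b, hb⟩
    refine ⟨a + b, ?_⟩
    have : D.ev x (f + g) = fun s => D.ev x f s + D.ev x g s := by funext s; simp [ev, add_div]
    rw [this]; exact ha.add hb
  smul_mem' := by
    rintro c f ⟨a, ha⟩
    refine ⟨c * a, ?_⟩
    have : D.ev x (c • f) = fun s => c * D.ev x f s := by funext s; simp [ev, mul_div_assoc]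
    rw [this]; exact ha.const_mul c

/-- The limit functional. -/
noncomputable def limLin (x : Fin n → ℝ) (𝒰 : Ultrafilter ℝ) : D.conv x 𝒰 →ₗ[ℝ] ℝ where
  toFun f := f.2.choose
  map_add' f g := by
    refine tendsto_nhds_unique (f + g).2.choose_spec ?_
    have : D.ev x ((f + g : D.conv x 𝒰) : Fun n) =
        fun s => D.ev x (f : Fun n) s + D.ev x (g : Fun n) s := by
      funext s; simp [ev, add_div]
    rw [this]; exact f.2.choose_spec.add g.2.choose_spec
  map_smul' c f := by
    refine tendsto_nhds_unique (c • f).2.choose_spec ?_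
    have : D.ev x ((c • f : D.conv x 𝒰) : Fun n) = fun s => c * D.ev x (f : Fun n) s := by
      funext s; simp [ev, mul_div_assoc]
    rw [this]; exact f.2.choose_spec.const_mul c

/-- A cone point off the lineality is a limit of point masses. -/
theorem piece_mem {x : Fin n → ℝ} (hx : x ∈ cone p e) (hex : 0 < Hb p v e x) :
    x ∈ D.piece.set := by
  have L := D.lor
  have hτx : 0 < D.τ x := by
    rcases (D.toSing3.q_cone hx).eq_or_lt with h0 | hq
    · exact D.hτ x h0.symm hex
    · exact L.tau_pos D.hneg D.hτ ⟨hq, hex⟩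
  set 𝒰 := Ultrafilter.of (𝓝[>] (0 : ℝ))
  have hU : (𝒰 : Filter ℝ) ≤ 𝓝[>] (0 : ℝ) := Ultrafilter.of_le _
  have hy : ∀ᶠ s in (𝒰 : Filter ℝ), x + s • e ∈ inner p 3 e :=
    hU (eventually_nhdsWithin_of_forall fun s hs => D.hb.inner_add_e hx hs)
  have hyt : ∀ᶠ s in (𝒰 : Filter ℝ),
      0 < Hb p v (x + s • e) (x + s • e) ∧ 0 < D.τ (x + s • e) :=
    hy.mono fun s hs =>
      have h := D.toSing3.pos_inner hs
      ⟨h.1, L.tau_pos D.hneg D.hτ h⟩
  have hline : Tendsto (fun s : ℝ => x + s • e) (𝒰 : Filter ℝ) (𝓝 x) := by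
    have hc : Continuous fun s : ℝ => x + s • e := by fun_prop
    exact ((hc.tendsto' 0 x (by simp)).mono_left nhdsWithin_le_nhds).mono_left hU
  have hτc : Continuous D.τ := D.τ.continuous_of_finiteDimensional
  have hlc : Continuous D.l := D.l.continuous_of_finiteDimensional
  have hqc : Continuous fun y : Fin n → ℝ => Hb p v y y := by
    simp only [Hb_self]; exact continuous_lc p 2 continuous_const continuous_id
  -- ratios with the polar quadric as numerator factor
  have hratio : ∀ g : Fun n, Continuous g →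
      Tendsto (D.ev x fun y => Hb p v y y * g y) 𝒰 (𝓝 (g x / D.τ x)) := by
    intro g hg
    refine (((hg.tendsto x).comp hline).div ((hτc.tendsto x).comp hline) hτx.ne').congr'
      (hyt.mono fun s hs => ?_)
    simp only [ev, Pi.div_apply, Function.comp_apply]
    rw [mul_div_mul_left _ _ hs.1.ne']
  have hres : ∀ s : ℝ, x + s • e ∈ inner p 3 e →
      D.res (x + s • e) / Hb p v (x + s • e) (x + s • e) ≤ D.l (x + s • e) := fun s hs => by
    rw [div_le_iff₀ (D.toSing3.pos_inner hs).1]
    have h1 : 0 < eval (x + s • e) p := D.hb.inner_pos hs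
    rw [D.eval_eq (x + s • e)] at h1
    exact (sub_pos.1 h1).le
  set bd : Fun n := fun y => D.l y - qf D.G y / D.τ y + Hb p v y y / D.τ y
  have hbd : Tendsto (fun s : ℝ => bd (x + s • e)) (𝒰 : Filter ℝ) (𝓝 (bd x)) := by
    have hcont : ContinuousAt bd x := by
      refine (hlc.continuousAt.sub ?_).add ?_
      · exact (continuous_qf D.G).continuousAt.div hτc.continuousAt hτx.ne'
      · exact hqc.continuousAt.div hτc.continuousAt hτx.ne'
    exact hcont.tendsto.comp hline
  have hfam : ∀ a b, D.fam a * D.fam b ∈ D.conv x 𝒰 := by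
    intro a b
    refine exists_lim (C := |bd x| + 1) ?_
    filter_upwards [hy, hyt, hbd.eventually_lt_const (show bd x < |bd x| + 1 by
      linarith [le_abs_self (bd x)])] with s hs hs' hlt
    set y := x + s • e
    have hP : 0 < Hb p v y y * D.τ y := mul_pos hs'.1 hs'.2
    have hsum : ∑ c, D.fam c y ^ 2 = ∑ i, qf (D.Φ i) y ^ 2 + Hb p v y y ^ 2 := by
      simp [Fintype.sum_sum_type, fam, qfun]
    have h1 : |D.fam a y * D.fam b y| ≤ ∑ c, D.fam c y ^ 2 := by
      have ha := single_le_sum (f := fun c => D.fam c y ^ 2) (fun c _ => sq_nonneg _) (mem_univ a)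
      have hb := single_le_sum (f := fun c => D.fam c y ^ 2) (fun c _ => sq_nonneg _) (mem_univ b)
      rw [abs_le]
      constructor <;> nlinarith [sq_nonneg (D.fam a y + D.fam b y), sq_nonneg (D.fam a y - D.fam b y)]
    have h2 : (∑ c, D.fam c y ^ 2) / (Hb p v y y * D.τ y) =
        D.res y / Hb p v y y - qf D.G y / D.τ y + Hb p v y y / D.τ y := by
      rw [hsum, eq_sub_of_add_eq (D.sos y).symm]
      field_simp [hs'.1.ne', hs'.2.ne']
    simp only [ev, Pi.mul_apply]
    rw [abs_div, abs_of_pos hP]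
    refine le_trans (div_le_div_of_nonneg_right h1 hP.le) ?_
    rw [h2]
    have := hres s hs
    simp only [bd] at hlt
    linarith
  obtain ⟨Λ, hΛ⟩ := LinearMap.exists_extend (D.limLin x 𝒰)
  have hlim : ∀ f, (∃ a, Tendsto (D.ev x f) 𝒰 (𝓝 a)) → Tendsto (D.ev x f) 𝒰 (𝓝 (Λ f)) := by
    intro f hf
    have : Λ f = hf.choose := LinearMap.congr_fun hΛ ⟨f, hf⟩
    rw [this]; exact hf.choose_spec
  have hmass : ∀ᶠ s in (𝒰 : Filter ℝ), ∀ f : Fun n,
      (D.mass (x + s • e)).1 f = D.ev x f s := Eventually.of_forall fun s f => by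
    simp [mass, ev, div_eq_inv_mul]
  have hone : ∀ a b, Tendsto (fun s : ℝ => (D.mass (x + s • e)).1 ((1 : Fun n) * (D.fam a * D.fam b))) 𝒰
      (𝓝 (Λ ((1 : Fun n) * (D.fam a * D.fam b)))) := fun a b => by
    rw [one_mul]
    exact (hlim _ (hfam a b)).congr' (hmass.mono fun s hs => (hs _).symm)
  have htwo : ∀ i j : Fin n,
      Tendsto (fun s : ℝ => (D.mass (x + s • e)).1 (qfun (p := p) (v := v) * (co i * co j))) 𝒰
      (𝓝 (Λ (qfun (p := p) (v := v) * (co i * co j)))) := fun i j =>
    (hlim _ ⟨_, hratio (fun y => co i y * co j y) (by unfold co; fun_prop)⟩).congr'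
      (hmass.mono fun s hs => (hs _).symm)
  have hbase : D.base Λ = x := by
    funext i
    have h1 : (fun y => D.τ y * Hb p v y y * y i : Fun n) =
        fun y => Hb p v y y * (D.τ y * y i) := by funext y; ring
    have h := hratio (fun y => D.τ y * y i) (hτc.mul (continuous_apply i))
    rw [← h1, mul_div_cancel_left₀ _ hτx.ne'] at h
    exact tendsto_nhds_unique (hlim _ ⟨_, h⟩) h
  have htres : D.tres ∈ D.conv x 𝒰 := by
    have e1 : D.tres = ∑ a, D.fam (Sum.inl a) * D.fam (Sum.inl a) +
        fun y => Hb p v y y * qf D.G y := by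
      funext y; simp [tres, D.sos, fam, sq]
    rw [e1]
    exact Submodule.add_mem _ (Submodule.sum_mem _ fun a _ => hfam _ _)
      ⟨_, hratio _ (continuous_qf D.G)⟩
  have hσ : 0 ≤ D.l x - Λ D.tres := by
    refine sub_nonneg.2 (le_of_tendsto_of_tendsto (hlim _ htres) ((hlc.tendsto x).comp hline) ?_)
    filter_upwards [hy, hyt] with s hs hs'
    simp only [ev, tres, Function.comp_apply]
    rw [mul_comm (D.τ _), mul_div_mul_right _ _ hs'.2.ne']
    exact hres s hs
  refine ⟨(Λ, D.l x - Λ D.tres), (D.psd_iff _).2 ⟨⟨?_, ?_⟩, hσ⟩, ?_⟩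
  · have ht : Tendsto (fun s : ℝ => momMat 1 D.fam (D.mass (x + s • e)).1) (𝒰 : Filter ℝ)
        (𝓝 (momMat 1 D.fam Λ)) := tendsto_pi_nhds.2 fun a => tendsto_pi_nhds.2 fun b => hone a b
    have hc : IsClosed {M : Matrix (Fin k ⊕ Unit) (Fin k ⊕ Unit) ℝ | M.PosSemidef} :=
      isClosed_setOf_posSemidef continuous_id
    exact hc.mem_of_tendsto ht (hy.mono fun s hs => ((D.psd_iff _).1 (D.mass_psd hs)).1.1)
  · have ht : Tendsto (fun s : ℝ => momMat (qfun (p := p) (v := v)) co (D.mass (x + s • e)).1) (𝒰 : Filter ℝ)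
        (𝓝 (momMat (qfun (p := p) (v := v)) co Λ)) := tendsto_pi_nhds.2 fun a => tendsto_pi_nhds.2 fun b => htwo a b
    have hc : IsClosed {M : Matrix (Fin n) (Fin n) ℝ | M.PosSemidef} :=
      isClosed_setOf_posSemidef continuous_id
    exact hc.mem_of_tendsto ht (hy.mono fun s hs => ((D.psd_iff _).1 (D.mass_psd hs)).1.2)
  · rw [L_apply]
    simp only [hbase]
    simp

include D in
/-- The cone is a spectrahedral shadow. -/
theorem isShadow : IsShadow (cone p e) := by
  classical
  let F : Bool → Piece n := fun b => if b then D.piece else D.lpiece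
  have hF : (Piece.sum F).set = cone p e := by
    refine Set.Subset.antisymm
      (Piece.sum_subset F D.hb.zero_mem (fun a ha b hb => D.hb.cone_add ha hb) fun b => ?_)
      fun x hx => ?_
    · cases b
      · exact D.lpiece_subset
      · exact D.piece_subset
    have he : 0 ≤ Hb p v e x := by
      refine ge_of_tendsto (x := 𝓝[>] (0 : ℝ)) (f := fun s : ℝ => Hb p v e x + s * Hb p v e e) ?_
        (eventually_nhdsWithin_of_forall (a := (0:ℝ)) fun s hs => ?_)
      · have hc : Continuous fun s : ℝ => Hb p v e x + s * Hb p v e e := by fun_prop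
        simpa using (hc.tendsto 0).mono_left nhdsWithin_le_nhds
      · have := (D.toSing3.pos_inner (D.hb.inner_add_e hx hs)).2
        simpa using this.le
    have h0t : (0 : Fin n → ℝ) ∈ D.piece.set := ⟨0, by rw [map_zero]; exact PosSemidef.zero, map_zero _⟩
    have h0f : (0 : Fin n → ℝ) ∈ D.lpiece.set := ⟨0, by rw [map_zero]; exact PosSemidef.zero, map_zero _⟩
    rcases he.eq_or_lt with h | h
    · have := Piece.mem_sum_two F (i := false) (j := true) (by simp)
        (show x ∈ (F false).set from D.lpiece_mem hx h.symm) (show (0 : Fin n → ℝ) ∈ (F true).set from h0t)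
      simpa using this
    · have := Piece.mem_sum_two F (i := true) (j := false) (by simp)
        (show x ∈ (F true).set from D.piece_mem hx h) (show (0 : Fin n → ℝ) ∈ (F false).set from h0f)
      simpa using this
  rw [← hF]
  exact Piece.isShadow _

end Node

end Vale.Agent.P256.Cubic
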