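import Vale.Agent.P256.Conical.Shadow
import Vale.Agent.P256.Cubic.Cert

/-!
The moment piece: linear functionals on functions, nonnegative on the squares of the certificates.
-/

namespace Vale.Agent.P256.Cubic

open MvPolynomial Finset Conical Matrix

variable {n k : ℕ}

/-- Real functions on the space. -/
abbrev Fun (n : ℕ) := (Fin n → ℝ) → ℝ

/-- A coordinate function. -/
def co (i : Fin n) : Fun n := fun y => y i

/-- The localised moment matrix of a family. -/
def momMat {ι : Type*} (w : Fun n) (g : ι → Fun n) : (Fun n →ₗ[ℝ] ℝ) →ₗ[ℝ] Matrix ι ι ℝ where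
  toFun Λ := Matrix.of fun a b => Λ (w * (g a * g b))
  map_add' _ _ := by ext a b; rfl
  map_smul' _ _ := by ext a b; rfl

theorem momMat_symm {ι : Type*} (w : Fun n) (g : ι → Fun n) (Λ : Fun n →ₗ[ℝ] ℝ) :
    (momMat w g Λ).IsSymm := by
  ext a b; simp [momMat, mul_comm (g a)]

theorem mom_sq {ι : Type*} [Fintype ι] {w : Fun n} {g : ι → Fun n} {Λ : Fun n →ₗ[ℝ] ℝ}
    (h : (momMat w g Λ).PosSemidef) (c : ι → ℝ) :
    0 ≤ Λ (w * ((∑ a, c a • g a) * ∑ b, c b • g b)) := by
  have e1 : w * ((∑ a, c a • g a) * ∑ b, c b • g b) =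
      ∑ a, ∑ b, (c a * c b) • (w * (g a * g b)) := by
    rw [sum_mul, mul_sum]
    refine sum_congr rfl fun a _ => ?_
    rw [mul_sum, mul_sum]
    refine sum_congr rfl fun b _ => ?_
    funext y; simp; ring
  rw [e1]
  refine le_of_le_of_eq ((posSemidef_iff_real.1 h).2 c) ?_
  simp only [map_sum, map_smul, smul_eq_mul, dotProduct, Matrix.mulVec, momMat, LinearMap.coe_mk,
    AddHom.coe_mk, Matrix.of_apply, mul_sum]
  exact sum_congr rfl fun a _ => sum_congr rfl fun b _ => by ring

namespace Node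

variable {p : MvPolynomial (Fin n) ℝ} {e v : Fin n → ℝ} (D : Node p e v k)

/-- The polar quadric as a function. -/
noncomputable def qfun : Fun n := fun y => Hb p v y y

/-- The squared family: the quadrics of the decomposition and the polar one. -/
noncomputable def fam : Fin k ⊕ Unit → Fun n := Sum.elim (fun a => qf (D.Φ a)) fun _ => qfun (p := p) (v := v)

/-- `τ` times the residual cubic. -/
noncomputable def tres : Fun n := fun y => D.τ y * D.res y

/-- The first moments. -/
noncomputable def base : (Fun n →ₗ[ℝ] ℝ) →ₗ[ℝ] (Fin n → ℝ) :=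
  LinearMap.pi fun i => (LinearMap.applyₗ (fun y => D.τ y * Hb p v y y * y i : Fun n))

/-- The moment piece. -/
noncomputable def piece : Piece n where
  U := (Fun n →ₗ[ℝ] ℝ) × ℝ
  σ := ((Fin k ⊕ Unit) ⊕ Fin n) ⊕ Unit
  L := D.base.comp (LinearMap.fst ℝ _ _) +
    ((LinearMap.snd ℝ _ _ + (LinearMap.applyₗ D.tres).comp (LinearMap.fst ℝ _ _) -
      (D.l.comp D.base).comp (LinearMap.fst ℝ _ _)).smulRight v)
  A :=
    { toFun := fun u => fromBlocks
        (fromBlocks (momMat 1 D.fam u.1) 0 0 (momMat (qfun (p := p) (v := v)) co u.1)) 0 0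
        (rayMap u.2)
      map_add' := fun u u' => by simp [fromBlocks_add]
      map_smul' := fun c u => by
        simp only [Prod.smul_fst, Prod.smul_snd, map_smul, RingHom.id_apply]
        simp [fromBlocks_smul] }
  symm := fun u => (IsSymm.fromBlocks (IsSymm.fromBlocks (momMat_symm _ _ _) (by simp)
    (momMat_symm _ _ _)) (by simp) ((isSymm_one).smul u.2))

theorem psd_iff (u : (Fun n →ₗ[ℝ] ℝ) × ℝ) : (D.piece.A u).PosSemidef ↔
    ((momMat 1 D.fam u.1).PosSemidef ∧ (momMat (qfun (p := p) (v := v)) co u.1).PosSemidef) ∧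
      0 ≤ u.2 := by
  change (fromBlocks (fromBlocks (momMat 1 D.fam u.1) 0 0
    (momMat (qfun (p := p) (v := v)) co u.1)) 0 0 (rayMap u.2)).PosSemidef ↔ _
  rw [posSemidef_fromBlocks_diag, posSemidef_fromBlocks_diag]
  refine and_congr_right fun _ => ⟨fun h => ?_, fun h => PosSemidef.one.smul h⟩
  have h1 : 0 ≤ (rayMap u.2) () () := h.diag_nonneg
  simpa [rayMap] using h1

theorem L_apply (u : (Fun n →ₗ[ℝ] ℝ) × ℝ) :
    D.piece.L u = D.base u.1 + (u.2 + u.1 D.tres - D.l (D.base u.1)) • v := rfl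

theorem l_L (u : (Fun n →ₗ[ℝ] ℝ) × ℝ) : D.l (D.piece.L u) = u.2 + u.1 D.tres := by
  rw [L_apply, map_add, map_smul, D.hl, smul_eq_mul]; ring

theorem Hb_L (u : (Fun n →ₗ[ℝ] ℝ) × ℝ) (z : Fin n → ℝ) :
    Hb p v z (D.piece.L u) = Hb p v z (D.base u.1) := by
  rw [L_apply, map_add, map_smul, D.toSing3.Hb_v, smul_zero, add_zero]

theorem ell_v (x : Fin n → ℝ) : D.ell x v = 0 := by
  have h : D.proj v = 0 := by simp [proj, D.hl]
  simp [ell, dres, h, D.toSing3.Hb_v]

theorem ell_L (u : (Fun n →ₗ[ℝ] ℝ) × ℝ) (z : Fin n → ℝ) :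
    D.ell z (D.piece.L u) = D.ell z (D.base u.1) := by
  rw [L_apply, map_add, map_smul, D.ell_v, smul_zero, add_zero]

/-- Linear forms times `τ q` are read on the first moments. -/
theorem apply_lin (Λ : Fun n →ₗ[ℝ] ℝ) (f : (Fin n → ℝ) →ₗ[ℝ] ℝ) :
    Λ (fun y => D.τ y * Hb p v y y * f y) = f (D.base Λ) := by
  have e1 : (fun y => D.τ y * Hb p v y y * f y : Fun n) =
      ∑ i, f (Pi.single i 1) • (fun y => D.τ y * Hb p v y y * y i : Fun n) := by
    funext y
    have hf : f y = ∑ i, y i * f (Pi.single i 1) := by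
      conv_lhs => rw [pi_eq_sum_univ' y]
      simp
    simp only [hf, smul_eq_mul, Finset.sum_apply, Pi.smul_apply, mul_sum]
    exact sum_congr rfl fun i _ => by ring
  conv_rhs => rw [pi_eq_sum_univ' (D.base Λ)]
  simp only [e1, map_sum, map_smul, smul_eq_mul]
  exact sum_congr rfl fun i _ => by simp [base, mul_comm]

theorem lin_sq_nonneg {u : (Fun n →ₗ[ℝ] ℝ) × ℝ} (hu : (D.piece.A u).PosSemidef)
    (B : Matrix (Fin n) (Fin n) ℝ) :
    0 ≤ u.1 (fun y => Hb p v y y * ∑ j, (B *ᵥ y) j ^ 2) := by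
  have e1 : (fun y => Hb p v y y * ∑ j, (B *ᵥ y) j ^ 2 : Fun n) =
      ∑ j, qfun (p := p) (v := v) * ((∑ i, B j i • co i) * ∑ i, B j i • co i) := by
    funext y
    simp only [qfun, co, Finset.sum_apply, Pi.mul_apply, Pi.smul_apply, smul_eq_mul, mul_sum,
      Matrix.mulVec, dotProduct, sq]
  rw [e1, map_sum]
  exact sum_nonneg fun j _ => mom_sq ((D.psd_iff u).1 hu).1.2 _

theorem fam_sq_nonneg {u : (Fun n →ₗ[ℝ] ℝ) × ℝ} (hu : (D.piece.A u).PosSemidef)
    (c : Fin k → ℝ) (a : Fin k) :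
    0 ≤ u.1 (fun y => (qf (D.Φ a) y - c a * Hb p v y y) ^ 2) := by
  have h := mom_sq ((D.psd_iff u).1 hu).1.1 (Sum.elim (Pi.single a 1) fun _ => -c a)
  convert h using 2
  funext y
  simp [fam, qfun, Fintype.sum_sum_type, Pi.single_apply, sq]
  ring

/-- The tangent inequality at a point of the open polar cone. -/
theorem tangent_le {u : (Fun n →ₗ[ℝ] ℝ) × ℝ} (hu : (D.piece.A u).PosSemidef) {x : Fin n → ℝ}
    (hx : Pos (Hb p v) e x) : 0 ≤ u.1 D.tres + D.ell x (D.base u.1) := by
  obtain ⟨c, B, h⟩ := D.cert hx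
  have e1 : D.tres + (fun y => D.τ y * Hb p v y y * D.ell x y) =
      (∑ a, fun y => (qf (D.Φ a) y - c a * Hb p v y y) ^ 2) +
        fun y => Hb p v y y * ∑ j, (B *ᵥ y) j ^ 2 := by
    funext y
    simp only [Pi.add_apply, tres, Finset.sum_apply]
    rw [← h y]; ring
  have e2 := congrArg u.1 e1
  rw [map_add, map_add, map_sum, D.apply_lin] at e2
  rw [e2]
  exact add_nonneg (sum_nonneg fun a _ => D.fam_sq_nonneg hu c a) (D.lin_sq_nonneg hu B)

/-- The first moments lie in the dual of the open polar cone. -/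
theorem base_pair {u : (Fun n →ₗ[ℝ] ℝ) × ℝ} (hu : (D.piece.A u).PosSemidef) {z : Fin n → ℝ}
    (hz : Pos (Hb p v) e z) : 0 ≤ Hb p v z (D.base u.1) := by
  have L := D.lor
  have hτz := L.tau_pos D.hneg D.hτ hz
  set μ := D.τ z / 2 with hμ
  set M : Matrix (Fin n) (Fin n) ℝ :=
    vecMulVec (fun i => D.τ (Pi.single i 1)) (fun i => Hb p v z (Pi.single i 1)) -
      (μ / 2) • Matrix.of (fun i j => hess p v i j)
  have hM : ∀ y, qf M y = D.τ y * Hb p v z y - μ * Hb p v y y := fun y => by
    have hh : qf (Matrix.of fun i j => hess p v i j) y = 2 * Hb p v y y := by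
      rw [Hb_self, lc_two]
      simp only [qf, dotProduct, Matrix.mulVec, mul_sum, Matrix.of_apply]
      exact sum_congr rfl fun i _ => sum_congr rfl fun j _ => by ring
    have hlin : ∀ f : (Fin n → ℝ) →ₗ[ℝ] ℝ, f y = (fun i => f (Pi.single i 1)) ⬝ᵥ y := fun f => by
      conv_lhs => rw [pi_eq_sum_univ' y]
      simp [dotProduct, mul_comm]
    simp only [qf] at hh ⊢
    simp only [M, sub_mulVec, dotProduct_sub, smul_mulVec, dotProduct_smul, hh, smul_eq_mul,
      vecMulVec_mulVec]
    rw [hlin D.τ, hlin (Hb p v z)]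
    simp [dotProduct_comm]; ring
  have hnn : ∀ y, 0 ≤ qf M y := fun y => by
    rw [hM]
    set t := Hb p v z y / Hb p v z z
    set w := y - t • z
    have hw : Hb p v z w = 0 := by simp [w, t, hz.1.ne']
    have hy : y = t • z + (1 : ℝ) • w := by simp [w]
    have hbound : Hb p v z z * D.τ w ^ 2 + D.τ z ^ 2 * Hb p v w w ≤ 0 := by
      rcases (L.perp' hz.1 hw).eq_or_lt with h0 | hlt
      · rw [h0, L.tau_lin D.hneg D.hτ (L.null_perp hz.1 hw h0)]; simp
      · linarith [L.tau_bound D.hτ hz hw hlt]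
    conv_rhs => rw [hy]
    rw [L.expand, map_add, map_smul, map_add, map_smul]
    simp only [one_smul, smul_eq_mul, hw, hμ]
    have : 0 ≤ (2 * D.τ z) * ((t * D.τ z + D.τ w) * (t * Hb p v z z + 0) -
        D.τ z / 2 * (t ^ 2 * Hb p v z z + 2 * t * 1 * 0 + 1 ^ 2 * Hb p v w w)) := by
      nlinarith [mul_nonneg hz.1.le (sq_nonneg (t * D.τ z + D.τ w))]
    simp only [map_smul, smul_eq_mul, one_mul]
    refine le_of_le_of_eq (nonneg_of_mul_nonneg_right this (by linarith)) ?_
    ring
  obtain ⟨B, hB⟩ := exists_sq hnn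
  have e1 : (fun y => Hb p v y y * ∑ j, (B *ᵥ y) j ^ 2 : Fun n) =
      (fun y => D.τ y * Hb p v y y * Hb p v z y) -
        μ • ((1 : Fun n) * (D.fam (Sum.inr ()) * D.fam (Sum.inr ()))) := by
    funext y
    rw [← hB, hM]
    simp [fam, qfun]; ring
  have h := D.lin_sq_nonneg hu B
  rw [e1, map_sub, map_smul, D.apply_lin, smul_eq_mul] at h
  have h2 : 0 ≤ u.1 ((1 : Fun n) * (D.fam (Sum.inr ()) * D.fam (Sum.inr ()))) :=
    ((D.psd_iff u).1 hu).1.1.diag_nonneg (i := Sum.inr ())
  have : 0 ≤ μ * u.1 ((1 : Fun n) * (D.fam (Sum.inr ()) * D.fam (Sum.inr ()))) :=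
    mul_nonneg (by linarith) h2
  linarith

/-- Point masses. -/
noncomputable def mass (y : Fin n → ℝ) : (Fun n →ₗ[ℝ] ℝ) × ℝ :=
  ((Hb p v y y * D.τ y)⁻¹ • LinearMap.proj y, eval y p / Hb p v y y)

theorem mass_psd {y : Fin n → ℝ} (hy : y ∈ inner p 3 e) : (D.piece.A (D.mass y)).PosSemidef := by
  have hq := D.toSing3.pos_inner hy
  have hτ := D.lor.tau_pos D.hneg D.hτ hq
  have hr : 0 ≤ (Hb p v y y * D.τ y)⁻¹ := inv_nonneg.2 (mul_nonneg hq.1.le hτ.le)
  have hgen : ∀ (ι : Type) [Fintype ι] (w : Fun n) (g : ι → Fun n), 0 ≤ w y →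
      (momMat w g (D.mass y).1).PosSemidef := by
    intro ι _ w g hw
    refine posSemidef_iff_real.2 ⟨momMat_symm _ _ _, fun c => ?_⟩
    have : c ⬝ᵥ (momMat w g (D.mass y).1 *ᵥ c) =
        (Hb p v y y * D.τ y)⁻¹ * w y * (∑ a, c a * g a y) ^ 2 := by
      simp only [momMat, mass, LinearMap.coe_mk, AddHom.coe_mk, Matrix.mulVec, dotProduct,
        Matrix.of_apply, LinearMap.smul_apply, LinearMap.proj_apply, Pi.mul_apply, smul_eq_mul,
        mul_sum, sq, sum_mul]
      exact sum_congr rfl fun a _ => sum_congr rfl fun b _ => by ring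
    rw [this]; positivity
  exact (D.psd_iff _).2 ⟨⟨hgen _ _ _ zero_le_one, hgen _ _ _ hq.1.le⟩,
    div_nonneg (D.hb.inner_pos hy).le hq.1.le⟩

theorem mass_base {y : Fin n → ℝ} (hy : y ∈ inner p 3 e) : D.base (D.mass y).1 = y := by
  have hq := D.toSing3.pos_inner hy
  have hτ := D.lor.tau_pos D.hneg D.hτ hq
  funext i
  simp [base, mass]
  field_simp [hq.1.ne', hτ.ne']

theorem mass_L {y : Fin n → ℝ} (hy : y ∈ inner p 3 e) : D.piece.L (D.mass y) = y := by
  have hq := D.toSing3.pos_inner hy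
  have hτ := D.lor.tau_pos D.hneg D.hτ hq
  rw [L_apply, D.mass_base hy]
  have : (D.mass y).2 + (D.mass y).1 D.tres = D.l y := by
    simp [mass, tres, D.eval_eq]
    field_simp [hq.1.ne', hτ.ne']; ring
  rw [this, sub_self, zero_smul, add_zero]

/-- The piece lies in the cone. -/
theorem piece_subset : D.piece.set ⊆ cone p e := by
  rintro x ⟨u, hu, rfl⟩
  set x := D.piece.L u
  have L := D.lor
  have hpair : ∀ z, Pos (Hb p v) e z → ∀ t : ℝ, 0 < t → 0 < Hb p v z (x + t • e) := by
    intro z hz t ht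
    have h1 : 0 ≤ Hb p v z x := le_of_le_of_eq (D.base_pair hu hz) (D.Hb_L u z).symm
    have h2 := L.pair_pos hz L.pos_e
    rw [map_add, map_smul, smul_eq_mul]
    nlinarith [mul_pos ht h2]
  have hpos : ∀ t : ℝ, 0 < t → Pos (Hb p v) e (x + t • e) := by
    intro t ht
    refine ⟨?_, hpair e L.pos_e t ht⟩
    set y := x + (t / 2) • e with hy
    have hey : 0 < Hb p v e y := hpair e L.pos_e _ (by linarith)
    have hyy : 0 ≤ Hb p v y y := by
      by_contra hlt
      push Not at hlt
      set α := Hb p v e y / Hb p v e e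
      set w := y + (-α) • e
      have hw : Hb p v e w = 0 := by simp [w, α, L.pos.ne']
      have hα : 0 < α := div_pos hey L.pos
      have hww : Hb p v w w = Hb p v y y - α ^ 2 * Hb p v e e := by
        rw [L.quadAdd, L.symm y e]; simp only [α]; field_simp [L.pos.ne']; ring
      have hwlt : Hb p v w w < 0 := by nlinarith [mul_pos (pow_pos hα 2) L.pos]
      set c := α * Hb p v e e / -Hb p v w w
      have hc : c * -Hb p v w w = α * Hb p v e e := div_mul_cancel₀ _ (by linarith)
      have hyw : Hb p v w y = Hb p v w w := by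
        conv_lhs => rw [show y = w + α • e by simp [w]]
        rw [map_add, map_smul, L.symm w e, hw]; simp
      have hzz : 0 < Hb p v (e + c • w) (e + c • w) := by
        rw [L.quadAdd, hw]
        have h3 : c ^ 2 * -Hb p v w w * -Hb p v w w = α ^ 2 * Hb p v e e * Hb p v e e := by
          linear_combination (c * -Hb p v w w + α * Hb p v e e) * hc
        have : c ^ 2 * -Hb p v w w < Hb p v e e := by
          by_contra hge
          push Not at hge
          nlinarith [mul_le_mul_of_nonneg_right hge (by linarith : 0 ≤ -Hb p v w w),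
            mul_lt_mul_of_pos_left (show α ^ 2 * Hb p v e e < -Hb p v w w by linarith) L.pos]
        linarith
      have hz : Pos (Hb p v) e (e + c • w) := ⟨hzz, by simp [hw, L.pos]⟩
      have := hpair _ hz (t / 2) (by linarith)
      rw [← hy] at this
      simp only [map_add, map_smul, LinearMap.add_apply, LinearMap.smul_apply, smul_eq_mul, hyw]
        at this
      have hey' : Hb p v e y = α * Hb p v e e := by simp only [α]; field_simp [L.pos.ne']
      nlinarith
    have : x + t • e = y + (t / 2) • e := by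
      simp only [y]; module
    rw [this, L.quadAdd, L.symm y e]
    nlinarith [mul_pos ht hey, mul_nonneg (sq_nonneg (t / 2)) L.pos.le]
  have hev : ∀ t : ℝ, 0 < t → 0 < eval (x + t • e) p := by
    intro t ht
    have hy := hpos t ht
    let m : D.piece.U := D.mass e
    have hm : (D.piece.A m).PosSemidef := D.mass_psd D.hb.e_inner
    have hmL : D.piece.L m = e := D.mass_L D.hb.e_inner
    set u' : D.piece.U := u + t • m
    have hu' : (D.piece.A u').PosSemidef := by
      rw [map_add, map_smul]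
      exact hu.add (hm.smul ht.le)
    have hx' : D.piece.L u' = x + t • e := by
      rw [map_add, map_smul, hmL]
    have hσ : 0 < u'.2 := by
      have h1 : 0 < t * (eval e p / Hb p v e e) := mul_pos ht (div_pos D.hb.pos L.pos)
      have h2 := ((D.psd_iff u).1 hu).2
      change 0 < u.2 + t * (eval e p / Hb p v e e)
      linarith
    have h1 := D.tangent_le hu' hy
    have h2 := D.l_L u'
    rw [← D.ell_L u', hx', D.ell_self hy.1.ne'] at h1
    rw [hx'] at h2
    rw [D.eval_eq, h2]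
    have h3 : D.res (x + t • e) ≤ u'.1 D.tres * Hb p v (x + t • e) (x + t • e) := by
      rw [← div_le_iff₀ hy.1]; linarith
    nlinarith [mul_pos hσ hy.1]
  have hin : ∀ t : ℝ, 0 < t → x + t • e ∈ cone p e := fun t ht => by
    refine D.hb.inner_subset (D.hb.inner_of_pos fun s hs => ne_of_gt ?_)
    rw [add_assoc, ← add_smul]
    exact hev _ (by linarith)
  refine (isClosed_cone p e).mem_of_tendsto (b := nhdsWithin (0 : ℝ) (Set.Ioi 0))
    (f := fun t : ℝ => x + t • e) ?_ (eventually_nhdsWithin_of_forall fun t ht => hin t ht)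
  have hf : Continuous fun t : ℝ => x + t • e := by fun_prop
  simpa using (hf.tendsto 0).mono_left nhdsWithin_le_nhds

end Node

end Vale.Agent.P256.Cubic
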