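import Mathlib

/-!
Symmetric bilinear forms with one positive direction, and linear forms positive on their cone.
-/

namespace Vale.Agent.P256.Cubic

open LinearMap

variable {V : Type*} [AddCommGroup V] [Module ℝ V]

/-- `H` is symmetric, positive at `e` and nonpositive on the orthogonal of `e`. -/
structure Lor (H : V →ₗ[ℝ] V →ₗ[ℝ] ℝ) (e : V) : Prop where
  symm : ∀ x y, H x y = H y x
  pos : 0 < H e e
  perp : ∀ u, H e u = 0 → H u u ≤ 0

variable {H : V →ₗ[ℝ] V →ₗ[ℝ] ℝ} {e : V}

theorem Lor.expand (L : Lor H e) (x y : V) (a b : ℝ) :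
    H (a • x + b • y) (a • x + b • y) = a ^ 2 * H x x + 2 * a * b * H x y + b ^ 2 * H y y := by
  simp only [map_add, map_smul, LinearMap.add_apply, LinearMap.smul_apply, smul_eq_mul, L.symm y x]
  ring

theorem Lor.quadAdd (L : Lor H e) (x y : V) (s : ℝ) :
    H (x + s • y) (x + s • y) = H x x + 2 * s * H x y + s ^ 2 * H y y := by
  simpa using L.expand x y 1 s

/-- Cauchy-Schwarz on a subspace where the form is nonpositive. -/
theorem Lor.cs_neg (L : Lor H e) {w z : V} (h : ∀ s : ℝ, H (w + s • z) (w + s • z) ≤ 0) :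
    H w z ^ 2 ≤ H w w * H z z := by
  have key : ∀ s : ℝ, 0 ≤ -H z z * (s * s) + -2 * H w z * s + -H w w := fun s => by
    have := h s; rw [L.quadAdd] at this; linarith
  have := discrim_le_zero key
  unfold discrim at this
  linarith

/-- The orthogonal of a timelike vector is nonpositive. -/
theorem Lor.perp' (L : Lor H e) {x u : V} (hx : 0 < H x x) (hu : H x u = 0) : H u u ≤ 0 := by
  set α := H e x / H e e
  set β := H e u / H e e
  set w := x + (-α) • e with hw
  set z := u + (-β) • e with hz
  have hE := L.pos.ne'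
  have hew : H e w = 0 := by simp [w, α, hE]
  have hez : H e z = 0 := by simp [z, β, hE]
  have hww : H w w = H x x - α ^ 2 * H e e := by
    rw [hw, L.quadAdd, L.symm x e]; simp only [α]; field_simp; ring
  have hzz : H z z = H u u - β ^ 2 * H e e := by
    rw [hz, L.quadAdd, L.symm u e]; simp only [β]; field_simp; ring
  have hwz : H w z = -(α * β * H e e) := by
    simp only [w, z, map_add, map_smul, LinearMap.add_apply, LinearMap.smul_apply, smul_eq_mul,
      hu, L.symm x e, α, β]
    field_simp; ring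
  have hcs := L.cs_neg (w := w) (z := z) fun s => L.perp _ (by simp [hew, hez])
  have h1 := L.perp w hew
  have h2 := L.perp z hez
  rw [hwz] at hcs
  by_contra hpos
  push Not at hpos
  have hz' : -H z z < β ^ 2 * H e e := by linarith
  have hw' : -H w w < α ^ 2 * H e e := by linarith
  have := mul_lt_mul'' hw' hz' (by linarith) (by linarith)
  nlinarith

/-- The reversed Cauchy-Schwarz inequality. -/
theorem Lor.rcs (L : Lor H e) {x : V} (hx : 0 < H x x) (u : V) : H x x * H u u ≤ H x u ^ 2 := by
  have h := L.perp' hx (u := u + (-(H x u / H x x)) • x) (by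
    simp only [map_add, map_smul, smul_eq_mul]; field_simp; ring)
  rw [L.quadAdd, L.symm u x] at h
  have : H u u - H x u ^ 2 / H x x ≤ 0 := by
    refine le_of_eq_of_le ?_ h; field_simp; ring
  have h' : H u u ≤ H x u ^ 2 / H x x := by linarith
  rw [le_div_iff₀ hx] at h'
  linarith

/-- A null vector orthogonal to a timelike one is orthogonal to everything. -/
theorem Lor.null_perp (L : Lor H e) {z y : V} (hz : 0 < H z z) (hzy : H z y = 0) (hy : H y y = 0)
    (w : V) : H y w = 0 := by
  set w' := w + (-(H z w / H z z)) • z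
  have hw' : H z w' = 0 := by simp [w', hz.ne']
  have hcs := L.cs_neg (w := y) (z := w') fun s => L.perp' hz (by simp [hzy, hw'])
  rw [hy, zero_mul] at hcs
  have h0 : H y w' = 0 := by nlinarith
  simpa [w', L.symm y z, hzy] using h0

/-- The open cone. -/
def Pos (H : V →ₗ[ℝ] V →ₗ[ℝ] ℝ) (e x : V) : Prop := 0 < H x x ∧ 0 < H e x

theorem Lor.pos_e (L : Lor H e) : Pos H e e := ⟨L.pos, L.pos⟩

/-- Two vectors of the open cone are positively paired. -/
theorem Lor.pair_pos (L : Lor H e) {x y : V} (hx : Pos H e x) (hy : Pos H e y) : 0 < H x y := by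
  by_contra hle
  push Not at hle
  set θ := -H x y / (H e x - H x y) with hθ
  have hd : 0 < H e x - H x y := by linarith [hx.2]
  have hθ0 : 0 ≤ θ := div_nonneg (by linarith) hd.le
  have hθ1 : θ < 1 := by rw [hθ, div_lt_one hd]; linarith [hx.2]
  have hperp : H x (θ • e + (1 - θ) • y) = 0 := by
    simp only [map_add, map_smul, smul_eq_mul, L.symm x e, hθ]; field_simp; ring
  have h := L.perp' hx.1 hperp
  rw [L.expand] at h
  nlinarith [mul_nonneg (mul_nonneg (by norm_num : (0:ℝ) ≤ 2) hθ0) (mul_nonneg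
    (by linarith : (0:ℝ) ≤ 1 - θ) hy.2.le), mul_nonneg (sq_nonneg θ) L.pos.le,
    mul_pos (pow_pos (by linarith : (0:ℝ) < 1 - θ) 2) hy.1]

/-- A null vector paired positively with a point of the open cone lies over `e`. -/
theorem Lor.null_side (L : Lor H e) {x y : V} (hx : Pos H e x) (hy : H y y = 0)
    (hxy : 0 < H x y) : 0 < H e y := by
  by_contra hle
  push Not at hle
  set θ := H x y / (H x y - H e y) with hθ
  have hd : 0 < H x y - H e y := by linarith
  have hθ0 : 0 < θ := div_pos hxy hd
  have hθ1 : θ ≤ 1 := by rw [hθ, div_le_one hd]; linarith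
  set z := θ • e + (1 - θ) • x with hz
  have hzy : H z y = 0 := by
    simp only [hz, map_add, map_smul, LinearMap.add_apply, LinearMap.smul_apply, smul_eq_mul, hθ]
    field_simp; ring
  have hzz : 0 < H z z := by
    rw [hz, L.expand]
    nlinarith [mul_pos (pow_pos hθ0 2) L.pos, mul_nonneg (mul_nonneg (by linarith : (0:ℝ) ≤ 2 * θ)
      (by linarith : (0:ℝ) ≤ 1 - θ)) hx.2.le, mul_nonneg (sq_nonneg (1 - θ)) hx.1.le]
  have := L.null_perp hzz hzy hy x
  rw [L.symm] at this
  linarith

/-- A negative direction orthogonal to a timelike vector. -/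
theorem Lor.exists_neg (L : Lor H e) {x : V} (hx : 0 < H x x) (hneg : ∃ u, H u u < 0) :
    ∃ u, H x u = 0 ∧ H u u < 0 := by
  obtain ⟨u, hu⟩ := hneg
  refine ⟨u + (-(H x u / H x x)) • x, by simp [hx.ne'], ?_⟩
  rw [L.quadAdd, L.symm u x]
  have : 0 ≤ H x u ^ 2 / H x x := div_nonneg (sq_nonneg _) hx.le
  refine lt_of_eq_of_lt ?_ (show H u u - H x u ^ 2 / H x x < 0 by linarith)
  field_simp; ring

/-- `τ` is positive on the null cone of `H` over `e`, lineality excepted. -/
def TauPos (H : V →ₗ[ℝ] V →ₗ[ℝ] ℝ) (e : V) (τ : V →ₗ[ℝ] ℝ) : Prop :=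
  ∀ y, H y y = 0 → 0 < H e y → 0 < τ y

variable {τ : V →ₗ[ℝ] ℝ}

/-- The null vectors over an open-cone point and an orthogonal negative direction. -/
theorem Lor.null_pair (L : Lor H e) {x u : V} (hx : Pos H e x) (hxu : H x u = 0)
    (hτ : TauPos H e τ) :
    ∀ s : ℝ, s ^ 2 = -H u u / H x x → 0 < s → 0 < τ (s • x + u) := by
  intro s hs hs0
  have h0 : H (s • x + u) (s • x + u) = 0 := by
    have h := L.expand x u s 1
    simp only [one_smul] at h
    rw [h, hs, hxu]; field_simp [hx.1.ne']; ring
  refine hτ _ h0 (L.null_side hx h0 ?_)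
  simp only [map_add, map_smul, smul_eq_mul, hxu, add_zero]
  exact mul_pos hs0 hx.1

/-- The linear form is positive on the open cone. -/
theorem Lor.tau_pos (L : Lor H e) (hneg : ∃ u, H u u < 0) (hτ : TauPos H e τ) {x : V}
    (hx : Pos H e x) : 0 < τ x := by
  obtain ⟨u, hxu, hu⟩ := L.exists_neg hx.1 hneg
  set s := Real.sqrt (-H u u / H x x)
  have hpos : 0 < -H u u / H x x := div_pos (by linarith) hx.1
  have hs : s ^ 2 = -H u u / H x x := Real.sq_sqrt hpos.le
  have hs0 : 0 < s := Real.sqrt_pos.2 hpos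
  have h1 := L.null_pair hx hxu hτ s hs hs0
  have h2 := L.null_pair hx (u := -u) (by simp [hxu]) hτ s (by simpa using hs) hs0
  simp only [map_add, map_smul, map_neg, smul_eq_mul] at h1 h2
  nlinarith

/-- The linear form is dominated on the orthogonal of a point of the open cone. -/
theorem Lor.tau_bound (L : Lor H e) (hτ : TauPos H e τ) {x u : V} (hx : Pos H e x)
    (hxu : H x u = 0) (hu : H u u < 0) : H u u * τ x ^ 2 + H x x * τ u ^ 2 < 0 := by
  set s := Real.sqrt (-H u u / H x x)
  have hpos : 0 < -H u u / H x x := div_pos (by linarith) hx.1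
  have hs : s ^ 2 = -H u u / H x x := Real.sq_sqrt hpos.le
  have hs0 : 0 < s := Real.sqrt_pos.2 hpos
  have h1 := L.null_pair hx hxu hτ s hs hs0
  have h2 := L.null_pair hx (u := -u) (by simp [hxu]) hτ s (by simpa using hs) hs0
  simp only [map_add, map_smul, map_neg, smul_eq_mul] at h1 h2
  have h : 0 < s ^ 2 * τ x ^ 2 - τ u ^ 2 := by nlinarith [mul_pos h1 h2]
  rw [hs] at h
  have := mul_pos hx.1 h
  rw [mul_sub, ← mul_assoc, mul_div_cancel₀ _ hx.1.ne'] at this
  linarith

/-- The linear form vanishes on the lineality of `H`. -/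
theorem Lor.tau_lin (L : Lor H e) (hneg : ∃ u, H u u < 0) (hτ : TauPos H e τ) {z : V}
    (hz : ∀ w, H z w = 0) : τ z = 0 := by
  obtain ⟨u, heu, hu⟩ := L.exists_neg L.pos hneg
  set s := Real.sqrt (-H u u / H e e)
  have hpos : 0 < -H u u / H e e := div_pos (by linarith) L.pos
  have hs : s ^ 2 = -H u u / H e e := Real.sq_sqrt hpos.le
  have hs0 : 0 < s := Real.sqrt_pos.2 hpos
  have hzR : ∀ w, H w z = 0 := fun w => by rw [L.symm]; exact hz w
  by_contra hne
  set c := -(τ (s • e + u)) / τ z - 1 / τ z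
  have h := L.null_pair L.pos_e (u := u + c • z) (by simp [heu, hzR]) hτ s (by rw [L.quadAdd, hzR, hz]; simpa using hs) hs0
  have : τ (s • e + (u + c • z)) = -1 := by
    simp only [map_add, map_smul, smul_eq_mul, c]; field_simp; ring
  linarith

end Vale.Agent.P256.Cubic
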