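import Vale.Agent.P256.Cubic.Division
import Vale.Agent.P256.Cubic.Factor

/-!
When the polar quadric has rank at most three the residual is a sum of squares on its null cone.
-/

namespace Vale.Agent.P256.Cubic

open MvPolynomial Finset Conical Matrix Filter Topology
open scoped ComplexOrder

variable {n : ℕ} {p : MvPolynomial (Fin n) ℝ} {e v : Fin n → ℝ}

variable (p) in
/-- The quadratic form over a null direction `Y`, with projection `P` on the lineality. -/
noncomputable def formMat (P : (Fin n → ℝ) →ₗ[ℝ] (Fin n → ℝ)) (Y : Fin n → ℝ) :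
    Matrix (Option (Fin n)) (Option (Fin n)) ℝ :=
  Matrix.of fun a b => match a, b with
    | none, none => -(T3 p Y Y Y / 3)
    | none, some j => -(T3 p (P (Pi.single j 1)) Y Y / 2)
    | some i, none => -(T3 p (P (Pi.single i 1)) Y Y / 2)
    | some i, some j => -T3 p Y (P (Pi.single i 1)) (P (Pi.single j 1))

theorem lin_sum (f : (Fin n → ℝ) →ₗ[ℝ] ℝ) (u : Fin n → ℝ) :
    ∑ i, u i * f (Pi.single i 1) = f u := by
  conv_rhs => rw [pi_eq_sum_univ' u]
  simp

theorem formMat_form (hd : p.IsHomogeneous 3) (P : (Fin n → ℝ) →ₗ[ℝ] (Fin n → ℝ))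
    (Y : Fin n → ℝ) (x : Option (Fin n) → ℝ) :
    x ⬝ᵥ (formMat p P Y *ᵥ x) = -(x none ^ 2 * eval Y p +
      x none * T3 p (P fun i => x (some i)) Y Y +
      T3 p Y (P fun i => x (some i)) (P fun i => x (some i))) := by
  set u : Fin n → ℝ := fun i => x (some i)
  have h1 : ∑ i, u i * T3 p (P (Pi.single i 1)) Y Y = T3 p (P u) Y Y :=
    lin_sum ((((T3 p).flip Y).flip Y).comp P) u
  have h2 : ∑ i, ∑ j, u i * u j * T3 p Y (P (Pi.single i 1)) (P (Pi.single j 1)) =
      T3 p Y (P u) (P u) := by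
    rw [show T3 p Y (P u) (P u) = ((T3 p Y).flip (P u) |>.comp P) u from rfl,
      ← lin_sum ((T3 p Y).flip (P u) |>.comp P) u]
    refine sum_congr rfl fun i _ => ?_
    rw [LinearMap.comp_apply, LinearMap.flip_apply, ← show ∑ j, u j *
      T3 p Y (P (Pi.single i 1)) (P (Pi.single j 1)) = T3 p Y (P (Pi.single i 1)) (P u) from
      lin_sum ((T3 p Y (P (Pi.single i 1))).comp P) u, mul_sum]
    exact sum_congr rfl fun j _ => by ring
  have hT := T3_eval hd Y
  simp only [dotProduct, Matrix.mulVec, Fintype.sum_option, formMat, Matrix.of_apply]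
  rw [← h1, ← h2]
  simp only [mul_add, mul_sum, sum_add_distrib, u, mul_neg, neg_mul, sum_neg_distrib, neg_add]
  rw [hT]
  have e1 : ∀ i, x none * (T3 p (P (Pi.single i 1)) Y Y / 2 * x (some i)) +
      x (some i) * (T3 p (P (Pi.single i 1)) Y Y / 2 * x none) =
      x none * (x (some i) * T3 p (P (Pi.single i 1)) Y Y) := fun i => by ring
  simp only [← e1, sum_add_distrib]
  have e2 : ∀ i j, x (some i) * x (some j) * T3 p Y (P (Pi.single i 1)) (P (Pi.single j 1)) =
      x (some i) * (T3 p Y (P (Pi.single i 1)) (P (Pi.single j 1)) * x (some j)) := fun i j => by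
    ring
  simp only [e2]
  ring

/-- The value of the cubic at a multiple of `Y` plus a vector of the lineality. -/
theorem eval_scaled (hd : p.IsHomogeneous 3) (Y z : Fin n → ℝ) (s : ℝ) :
    eval (s • Y + z) p =
      s ^ 3 * eval Y p + s ^ 2 * T3 p z Y Y + s * T3 p Y z z + eval z p := by
  have := eval_line3 hd (s • Y) z 1
  rw [one_smul, eval_smul hd] at this
  rw [this]
  simp only [map_smul, LinearMap.smul_apply, smul_eq_mul]
  ring

variable (S : Sing3 p e v) {P : (Fin n → ℝ) →ₗ[ℝ] (Fin n → ℝ)}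
  (hP : ∀ u w, Hb p v (P u) w = 0)

include S hP in
theorem Sing3.formMat_psd {Y : Fin n → ℝ} (hY : Hb p v Y Y = 0) (heY : 0 < Hb p v e Y) :
    (formMat p P Y).PosSemidef := by
  refine posSemidef_iff_real.2 ⟨?_, fun x => ?_⟩
  · ext a b
    rcases a with _ | i <;> rcases b with _ | j <;> simp [formMat, T3_symm]
  · rw [formMat_form S.hb.hom]
    linarith [(S.null_form hY heY (hP fun i => x (some i))).2 (x none)]

include S hP in
/-- A real square root of the form. -/
theorem Sing3.formMat_sq {Y : Fin n → ℝ} (hY : Hb p v Y Y = 0) (heY : 0 < Hb p v e Y) :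
    ∃ B : Matrix (Option (Fin n)) (Option (Fin n)) ℝ, ∀ x,
      x ⬝ᵥ (formMat p P Y *ᵥ x) = ∑ a, (B *ᵥ x) a ^ 2 := by
  obtain ⟨B, hB⟩ : ∃ B : Matrix (Option (Fin n)) (Option (Fin n)) ℝ, formMat p P Y = Bᴴ * B := by
    open scoped MatrixOrder in
    exact CStarAlgebra.nonneg_iff_eq_star_mul_self.1 (S.formMat_psd hP hY heY).nonneg
  refine ⟨B, fun x => ?_⟩
  rw [hB, ← mulVec_mulVec, conjTranspose_eq_transpose_of_trivial, dotProduct_mulVec,
    vecMul_transpose, dotProduct]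
  exact sum_congr rfl fun j _ => (sq _).symm

/-- The homogenised vector. -/
def hvec (c : ℝ) (y : Fin n → ℝ) : Option (Fin n) → ℝ := fun a => a.elim c y

include S in
/-- The lift when the polar quadric has rank two. -/
theorem Sing3.shadow_two (E U : Fin n → ℝ) (hE : Hb p v E E = 1)
    (hEy : ∀ y, 0 < Hb p v e y → 0 < Hb p v E y) (hEU : Hb p v E U = 0) (hU : Hb p v U U = -1)
    (heE : 0 < Hb p v e E) (heU : Hb p v e U = 0)
    (hlin : ∀ y, Hb p v E y = 0 → Hb p v U y = 0 → ∀ w, Hb p v y w = 0) :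
    IsShadow (cone p e) := by
  set τ := Hb p v E
  set w1 : (Fin n → ℝ) →ₗ[ℝ] ℝ := -(Hb p v U)
  set P : (Fin n → ℝ) →ₗ[ℝ] (Fin n → ℝ) := LinearMap.id - τ.smulRight E - w1.smulRight U
  have hUE : Hb p v U E = 0 := by rw [Hb_symm]; exact hEU
  have hP : ∀ u w, Hb p v (P u) w = 0 := fun u => hlin _
    (by simp [P, τ, w1, hE, hEU]) (by simp [P, τ, w1, hUE, hU])
  let sg : Bool → ℝ := fun b => if b then 1 else -1
  have hsg : ∀ b, sg b * sg b = 1 := fun b => by cases b <;> simp [sg]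
  have hY : ∀ b, Hb p v (E + sg b • U) (E + sg b • U) = 0 := fun b => by
    rw [Hb_add_sq, hE, hU, hEU, sq, hsg]; ring
  have heY : ∀ b, 0 < Hb p v e (E + sg b • U) := fun b => by simp [heU, heE]
  choose B hB using fun b => S.formMat_sq hP (hY b) (heY b)
  set L : Bool → (Fin n → ℝ) →ₗ[ℝ] ℝ := fun b => (1 / 2 : ℝ) • (τ + sg b • w1)
  have hΦ : ∀ ba : Bool × Option (Fin n), IsQ fun y =>
      L ba.1 y * (B ba.1 *ᵥ hvec (L ba.1 y) y) ba.2 := by
    intro ba
    obtain ⟨M, hM⟩ := IsQ.mul (L ba.1) (B ba.1 ba.2 none • L ba.1 +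
      ∑ i, B ba.1 ba.2 (some i) • (LinearMap.proj i : (Fin n → ℝ) →ₗ[ℝ] ℝ))
    exact ⟨M, fun y => by
      rw [hM]; simp [Matrix.mulVec, dotProduct, Fintype.sum_option, hvec, mul_comm]⟩
  choose Φ hΦ using hΦ
  refine S.shadow_of_null Φ E U hE hEy hEU (by rw [hU]; norm_num) fun r hr hUr t ht => ?_
  set y := t • E + r
  have hty : τ y = t := by simp [y, τ, hE, hr]
  set w := w1 y
  have hz : y = t • E + w • U + P y := by simp [P, hty, w]
  have hw : w ^ 2 = t ^ 2 := by
    have e1 : r = w • U + P y := by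
      apply add_left_cancel (a := t • E); rw [← add_assoc]; exact hz
    have e2 : ∀ x, Hb p v x (P y) = 0 := fun x => by rw [Hb_symm]; exact hP y x
    rw [ht, e1]
    simp only [map_add, map_smul, LinearMap.add_apply, LinearMap.smul_apply, smul_eq_mul, hU,
      hP y, e2]
    ring
  obtain ⟨b, hb⟩ : ∃ b, w = sg b * t := by
    rcases sq_eq_sq_iff_eq_or_eq_neg.1 hw with h | h
    · exact ⟨true, by simp [sg, h]⟩
    · exact ⟨false, by simp [sg, h]⟩
  have hLb : L b y = t := by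
    simp only [L, LinearMap.smul_apply, LinearMap.add_apply, smul_eq_mul, hty]
    rw [show w1 y = sg b * t from hb, ← mul_assoc (sg b), hsg]; ring
  have hLn : L (!b) y = 0 := by
    simp only [L, LinearMap.smul_apply, LinearMap.add_apply, smul_eq_mul, hty]
    rw [show w1 y = sg b * t from hb, ← mul_assoc (sg (!b))]
    cases b <;> simp [sg]
  have hsum : ∑ ba, qf (Φ ba) y ^ 2 = t ^ 2 * ∑ a, (B b *ᵥ hvec t y) a ^ 2 := by
    rw [Fintype.sum_prod_type, Fintype.sum_bool]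
    simp only [hΦ]
    cases b <;> simp only [Bool.not_false, Bool.not_true] at hLn <;>
      simp [hLb, hLn, mul_sum, mul_pow, mul_add]
  rw [hsum, ← hB b, formMat_form S.hb.hom, show y = t • (E + sg b • U) + P y by
    rw [smul_add, smul_smul, mul_comm t, ← hb]; exact hz, eval_scaled S.hb.hom]
  rw [(S.null_form (hY b) (heY b) (hP y)).1, ← show y = t • (E + sg b • U) + P y by
    rw [smul_add, smul_smul, mul_comm t, ← hb]; exact hz]
  simp only [hvec, Option.elim]
  ring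

variable (p) in
/-- The entries of the form along `Y 0 + σ Y 1 + σ² Y 2`, as coefficient functions. -/
noncomputable def formPoly (P : (Fin n → ℝ) →ₗ[ℝ] (Fin n → ℝ)) (Y : Fin 3 → Fin n → ℝ) :
    Matrix (Option (Fin n)) (Option (Fin n)) (Polynomial ℂ) :=
  Matrix.of fun a b => (Polynomial.X ^ 2 + 1) * match a, b with
    | none, none => ∑ i : Fin 3, ∑ j : Fin 3, ∑ k : Fin 3,
        Polynomial.C ((-(T3 p (Y i) (Y j) (Y k) / 3) : ℝ) : ℂ) *
          Polynomial.X ^ ((i : ℕ) + j + k)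
    | none, some b => ∑ i : Fin 3, ∑ j : Fin 3,
        Polynomial.C ((-(T3 p (P (Pi.single b 1)) (Y i) (Y j) / 2) : ℝ) : ℂ) *
          Polynomial.X ^ ((i : ℕ) + j)
    | some a, none => ∑ i : Fin 3, ∑ j : Fin 3,
        Polynomial.C ((-(T3 p (P (Pi.single a 1)) (Y i) (Y j) / 2) : ℝ) : ℂ) *
          Polynomial.X ^ ((i : ℕ) + j)
    | some a, some b => ∑ i : Fin 3,
        Polynomial.C ((-T3 p (Y i) (P (Pi.single a 1)) (P (Pi.single b 1)) : ℝ) : ℂ) *
          Polynomial.X ^ (i : ℕ)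

/-- The point with parameter `σ`. -/
def curve (Y : Fin 3 → Fin n → ℝ) (σ : ℝ) : Fin n → ℝ := ∑ k : Fin 3, σ ^ (k : ℕ) • Y k

theorem formPoly_at (P : (Fin n → ℝ) →ₗ[ℝ] (Fin n → ℝ)) (Y : Fin 3 → Fin n → ℝ) (σ : ℝ) :
    at' (formPoly p P Y) σ = ((σ ^ 2 + 1) • formMat p P (curve Y σ)).map (fun x : ℝ => (x : ℂ)) := by
  ext a b
  rcases a with _ | a <;> rcases b with _ | b <;>
    simp [at', formPoly, formMat, curve, Fin.sum_univ_three] <;> first | ring1 | (left; ring1)

theorem formPoly_deg (P : (Fin n → ℝ) →ₗ[ℝ] (Fin n → ℝ)) (Y : Fin 3 → Fin n → ℝ) :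
    (formPoly p P Y none none).natDegree ≤ 8 ∧
      ∀ i, (formPoly p P Y (some i) (some i)).natDegree ≤ 4 := by
  have h2 : (Polynomial.X ^ 2 + 1 : Polynomial ℂ).natDegree ≤ 2 := by compute_degree
  have hm : ∀ (A : Polynomial ℂ) (m : ℕ), A.natDegree ≤ m →
      ((Polynomial.X ^ 2 + 1) * A).natDegree ≤ 2 + m := fun A m hA =>
    Polynomial.natDegree_mul_le.trans (add_le_add h2 hA)
  refine ⟨?_, fun a => ?_⟩
  · simp only [formPoly, Matrix.of_apply]
    refine hm _ 6 ?_
    exact Polynomial.natDegree_sum_le_of_forall_le _ _ fun i _ =>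
      Polynomial.natDegree_sum_le_of_forall_le _ _ fun j _ =>
      Polynomial.natDegree_sum_le_of_forall_le _ _ fun k _ =>
      (Polynomial.natDegree_C_mul_X_pow_le _ _).trans (by omega)
  · simp only [formPoly, Matrix.of_apply]
    refine hm _ 2 ?_
    exact Polynomial.natDegree_sum_le_of_forall_le _ _ fun i _ =>
      (Polynomial.natDegree_C_mul_X_pow_le _ _).trans (by omega)

include S hP in
/-- The real squares on the null curve, by degree. -/
theorem Sing3.curve_sq (Y : Fin 3 → Fin n → ℝ) (hY : ∀ σ, Hb p v (curve Y σ) (curve Y σ) = 0)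
    (heY : ∀ σ, 0 < Hb p v e (curve Y σ)) :
    ∃ (a : Option (Fin n) × Bool → Fin 5 → ℝ)
      (b : Option (Fin n) × Bool → Fin 3 → (Fin n → ℝ) →ₗ[ℝ] ℝ),
      ∀ (σ : ℝ) (x : Option (Fin n) → ℝ),
        (σ ^ 2 + 1) * (x ⬝ᵥ (formMat p P (curve Y σ) *ᵥ x)) =
          ∑ r, (x none * ∑ k : Fin 5, σ ^ (k : ℕ) * a r k +
            ∑ k : Fin 3, σ ^ (k : ℕ) * b r k fun i => x (some i)) ^ 2 := by
  have hpsd : PsdLine (formPoly p P Y) := fun σ => by
    have hr : ((σ ^ 2 + 1) • formMat p P (curve Y σ)).PosSemidef :=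
      (S.formMat_psd hP (hY σ) (heY σ)).smul (by positivity)
    obtain ⟨B, hB⟩ : ∃ B : Matrix (Option (Fin n)) (Option (Fin n)) ℝ,
        (σ ^ 2 + 1) • formMat p P (curve Y σ) = Bᴴ * B := by
      open scoped MatrixOrder in
      exact CStarAlgebra.nonneg_iff_eq_star_mul_self.1 hr.nonneg
    have hBt : (B.map (fun x : ℝ => (x : ℂ)))ᴴ = (Bᴴ).map (fun x : ℝ => (x : ℂ)) := by
      ext i j; simp
    rw [formPoly_at, hB, show (Bᴴ * B).map (fun x : ℝ => (x : ℂ)) =
        (B.map (fun x : ℝ => (x : ℂ)))ᴴ * B.map (fun x : ℝ => (x : ℂ)) by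
      rw [hBt]; exact Matrix.map_mul (f := Complex.ofRealHom)]
    exact posSemidef_conjTranspose_mul_self _
  obtain ⟨G, hG, hdeg⟩ := factors_degree hpsd
  obtain ⟨d0, d1⟩ := formPoly_deg (p := p) P Y
  let part : Bool → ℂ → ℝ := fun b z => if b then z.re else z.im
  let b : Option (Fin n) × Bool → Fin 3 → (Fin n → ℝ) →ₗ[ℝ] ℝ := fun r k =>
    ∑ i, part r.2 ((G r.1 (some i)).coeff k) • (LinearMap.proj i : (Fin n → ℝ) →ₗ[ℝ] ℝ)
  refine ⟨fun r k => part r.2 ((G r.1 none).coeff k), b, fun σ x => ?_⟩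
  have hval : ∀ (r : Option (Fin n) × Bool),
      x none * ∑ k : Fin 5, σ ^ (k : ℕ) * part r.2 ((G r.1 none).coeff k) +
        ∑ k : Fin 3, σ ^ (k : ℕ) * b r k (fun i => x (some i)) =
      ∑ c, x c * part r.2 ((G r.1 c).eval (σ : ℂ)) := by
    intro r
    have hpart : ∀ (q : Polynomial ℂ) (N : ℕ), q.natDegree < N →
        part r.2 (q.eval (σ : ℂ)) = ∑ k : Fin N, σ ^ (k : ℕ) * part r.2 (q.coeff k) := by
      intro q N hN
      rw [Polynomial.eval_eq_sum_range' hN, Fin.sum_univ_eq_sum_range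
        (fun k => σ ^ k * part r.2 (q.coeff k))]
      cases r.2 <;> simp [part, ← Complex.ofReal_pow, mul_comm]
    rw [Fintype.sum_option]
    congr 1
    · rw [hpart (G r.1 none) 5 (by have := hdeg r.1 none; omega)]
    · simp only [b, LinearMap.coe_sum, Finset.sum_apply, LinearMap.smul_apply,
        LinearMap.proj_apply, smul_eq_mul, mul_sum]
      rw [sum_comm]
      refine sum_congr rfl fun i _ => ?_
      rw [hpart (G r.1 (some i)) 3 (by have := hdeg r.1 (some i); have := d1 i; omega), mul_sum]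
      exact sum_congr rfl fun k _ => by ring
  simp only [hval, Fintype.sum_prod_type, Fintype.sum_bool, part, if_true, Bool.false_eq_true,
    if_false]
  have hM : ∀ c d, (σ ^ 2 + 1) * formMat p P (curve Y σ) c d =
      ∑ r, (((G r c).eval (σ : ℂ)).re * ((G r d).eval (σ : ℂ)).re +
        ((G r c).eval (σ : ℂ)).im * ((G r d).eval (σ : ℂ)).im) := by
    intro c d
    have := congrArg Complex.re (congrFun (congrFun ((formPoly_at (p := p) P Y σ).symm.trans (hG σ)) c) d)
    simpa [at', Matrix.mul_apply, ← Complex.ofReal_pow] using this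
  calc (σ ^ 2 + 1) * (x ⬝ᵥ (formMat p P (curve Y σ) *ᵥ x))
      = ∑ c, ∑ d, x c * x d * ((σ ^ 2 + 1) * formMat p P (curve Y σ) c d) := by
        simp only [dotProduct, Matrix.mulVec, mul_sum]
        exact sum_congr rfl fun c _ => sum_congr rfl fun d _ => by ring
    _ = ∑ r, ∑ c, ∑ d, x c * x d * (((G r c).eval (σ : ℂ)).re * ((G r d).eval (σ : ℂ)).re +
          ((G r c).eval (σ : ℂ)).im * ((G r d).eval (σ : ℂ)).im) := by
        simp only [hM, mul_sum]
        exact (sum_congr rfl fun c _ => sum_comm).trans sum_comm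
    _ = _ := by
        refine sum_congr rfl fun r _ => ?_
        simp only [sq, sum_mul_sum, ← sum_add_distrib]
        exact sum_congr rfl fun c _ => sum_congr rfl fun d _ => by ring

include S in
/-- The lift when the polar quadric has rank three. -/
theorem Sing3.shadow_three (E U₁ U₂ : Fin n → ℝ) (hE : Hb p v E E = 1)
    (hEy : ∀ y, 0 < Hb p v e y → 0 < Hb p v E y) (h1 : Hb p v E U₁ = 0) (h2 : Hb p v E U₂ = 0)
    (h12 : Hb p v U₁ U₂ = 0) (hU₁ : Hb p v U₁ U₁ = -1) (hU₂ : Hb p v U₂ U₂ = -1)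
    (heE : 0 < Hb p v e E) (he1 : Hb p v e U₁ = 0) (he2 : Hb p v e U₂ = 0)
    (hlin : ∀ y, Hb p v E y = 0 → Hb p v U₁ y = 0 → Hb p v U₂ y = 0 → ∀ w, Hb p v y w = 0) :
    IsShadow (cone p e) := by
  set τ := Hb p v E
  set w1 : (Fin n → ℝ) →ₗ[ℝ] ℝ := -(Hb p v U₁)
  set w2 : (Fin n → ℝ) →ₗ[ℝ] ℝ := -(Hb p v U₂)
  set P : (Fin n → ℝ) →ₗ[ℝ] (Fin n → ℝ) :=
    LinearMap.id - τ.smulRight E - w1.smulRight U₁ - w2.smulRight U₂
  have s1 : Hb p v U₁ E = 0 := by rw [Hb_symm]; exact h1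
  have s2 : Hb p v U₂ E = 0 := by rw [Hb_symm]; exact h2
  have s12 : Hb p v U₂ U₁ = 0 := by rw [Hb_symm]; exact h12
  have hP : ∀ u w, Hb p v (P u) w = 0 := fun u => hlin _
    (by simp [P, τ, w1, w2, hE, h1, h2]) (by simp [P, τ, w1, w2, s1, hU₁, h12])
    (by simp [P, τ, w1, w2, s2, hU₂, s12])
  set Y : Fin 3 → Fin n → ℝ := ![E - U₁, (2 : ℝ) • U₂, E + U₁]
  have hY : ∀ σ, Hb p v (curve Y σ) (curve Y σ) = 0 := fun σ => by
    simp [curve, Y, Fin.sum_univ_three, τ, hE, h1, h2, h12, hU₁, hU₂, s1, s2, s12]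
    ring
  have heY : ∀ σ, 0 < Hb p v e (curve Y σ) := fun σ => by
    simp [curve, Y, Fin.sum_univ_three, he1, he2]
    nlinarith [heE, mul_nonneg (sq_nonneg σ) heE.le]
  obtain ⟨a, b, hab⟩ := S.curve_sq hP Y hY heY
  set X : Fin 3 → (Fin n → ℝ) →ₗ[ℝ] ℝ :=
    ![(1 / 2 : ℝ) • (τ - w1), (1 / 2 : ℝ) • w2, (1 / 2 : ℝ) • (τ + w1)]
  have hΦ : ∀ r, IsQ fun y => a r 0 * (X 0 y * X 0 y) + a r 1 * (X 0 y * X 1 y) +
      a r 2 * (X 1 y * X 1 y) + a r 3 * (X 1 y * X 2 y) + a r 4 * (X 2 y * X 2 y) +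
      X 0 y * b r 0 y + X 1 y * b r 1 y + X 2 y * b r 2 y := fun r =>
    ((((((((IsQ.mul (X 0) (X 0)).const_mul (a r 0)).add ((IsQ.mul (X 0) (X 1)).const_mul (a r 1))).add
      ((IsQ.mul (X 1) (X 1)).const_mul (a r 2))).add ((IsQ.mul (X 1) (X 2)).const_mul (a r 3))).add
      ((IsQ.mul (X 2) (X 2)).const_mul (a r 4))).add (IsQ.mul (X 0) (b r 0))).add
      (IsQ.mul (X 1) (b r 1))).add (IsQ.mul (X 2) (b r 2))
  choose Φ hΦ using hΦ
  refine S.shadow_of_null Φ E U₂ hE hEy h2 (by rw [hU₂]; norm_num) fun r hr hUr t ht => ?_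
  set y := t • E + r
  have hty : τ y = t := by simp [y, τ, hE, hr]
  set u1 := w1 y
  set u2 := w2 y
  have hz : y = t • E + u1 • U₁ + u2 • U₂ + P y := by simp [P, hty, u1, u2]
  have hu2 : u2 ≠ 0 := by simp [u2, w2, y, s2]; simpa using hUr
  have hsq : t ^ 2 = u1 ^ 2 + u2 ^ 2 := by
    have e1 : r = u1 • U₁ + u2 • U₂ + P y := by
      apply add_left_cancel (a := t • E); rw [← add_assoc, ← add_assoc]; exact hz
    have e2 : ∀ x, Hb p v x (P y) = 0 := fun x => by rw [Hb_symm]; exact hP y x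
    rw [ht, e1]
    simp only [map_add, map_smul, LinearMap.add_apply, LinearMap.smul_apply, smul_eq_mul, hU₁,
      hU₂, h12, s12, hP y, e2]
    ring
  have hne : t - u1 ≠ 0 := fun h0 => hu2 (by
    have : u2 ^ 2 = 0 := by rw [show t = u1 by linarith] at hsq; linarith
    simpa using this)
  set s := (t - u1) / 2 with hs
  set σ := u2 / (t - u1) with hσ
  have x0 : X 0 y = s := by simp [X, hty, s, u1]; ring
  have x1 : X 1 y = s * σ := by simp [X, s, σ, u2]; field_simp
  have x2 : X 2 y = s * σ ^ 2 := by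
    simp [X, hty, s, σ]
    field_simp
    linear_combination hsq
  have et : t = s * (σ ^ 2 + 1) := by
    rw [hs, hσ]; field_simp; linear_combination hsq
  have hyY : y = s • curve Y σ + P y := by
    conv_lhs => rw [hz]
    congr 1
    have e1 : u1 = s * (σ ^ 2 - 1) := by rw [hs, hσ]; field_simp; linear_combination hsq
    have e2 : u2 = s * (2 * σ) := by rw [hs, hσ]; field_simp
    simp only [curve, Y, Fin.sum_univ_three, Fin.val_zero, Fin.val_one, Fin.val_two,
      Matrix.cons_val_zero, Matrix.cons_val_one, Matrix.cons_val_two, Matrix.head_cons,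
      Matrix.tail_cons, pow_zero, pow_one, one_smul]
    rw [et, e1, e2]
    module
  have hs0 : s ≠ 0 := by rw [hs]; exact div_ne_zero hne two_ne_zero
  have hev : eval y p = s ^ 3 * eval (curve Y σ) p + s ^ 2 * T3 p (P y) (curve Y σ) (curve Y σ) +
      s * T3 p (curve Y σ) (P y) (P y) := by
    conv_lhs => rw [hyY, eval_scaled S.hb.hom, (S.null_form (hY σ) (heY σ) (hP y)).1, add_zero]
  have h := hab σ (hvec s y)
  rw [formMat_form S.hb.hom] at h
  simp only [hvec, Option.elim] at h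
  have hsum : ∑ r, qf (Φ r) y ^ 2 = s ^ 2 * ∑ r, (s * ∑ k : Fin 5, σ ^ (k : ℕ) * a r k +
      ∑ k : Fin 3, σ ^ (k : ℕ) * b r k fun i => y i) ^ 2 := by
    rw [mul_sum]
    refine sum_congr rfl fun r _ => ?_
    simp only [hΦ, x0, x1, x2, Fin.sum_univ_five, Fin.sum_univ_three]
    simp
    ring
  rw [hsum, ← h, hev, et]
  ring

end Vale.Agent.P256.Cubic
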