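import Vale.Agent.P256.Conical.Facts
import Vale.Agent.P256.Cubic.Quad

/-!
A cubic hyperbolic polynomial with a singular ray `v` on the boundary of its cone.
-/

namespace Vale.Agent.P256.Cubic

open MvPolynomial Finset Conical

variable {n : ℕ}

/-- Hyperbolic of degree three, singular at the cone point `v`, with indefinite polar quadric. -/
structure Sing3 (p : MvPolynomial (Fin n) ℝ) (e v : Fin n → ℝ) : Prop where
  hb : HB p 3 e
  mem : v ∈ cone p e
  val : eval v p = 0
  grad0 : ∀ i, grad p v i = 0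
  neg : ∃ x, lc p 2 v x < 0

/-- Coefficients of a cubic with three real roots satisfy Laguerre's inequality at zero. -/
theorem rr_cubic {P : Polynomial ℝ} (hP : RR P) (hdeg : P.natDegree = 3) :
    2 * (P.coeff 0 * P.coeff 2) ≤ P.coeff 1 ^ 2 := by
  obtain ⟨c, s, hs⟩ := hP.factor
  have hc : c ≠ 0 := by
    rintro rfl
    rw [hs] at hdeg; simp at hdeg
  have hcard : s.card = 3 := by
    rw [hs, Polynomial.natDegree_C_mul hc, natDegree_rootsProd] at hdeg; exact hdeg
  obtain ⟨a, b, r, rfl⟩ := Multiset.card_eq_three.1 hcard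
  have : P = Polynomial.C c * Polynomial.X ^ 3 + Polynomial.C (-c * (a + b + r)) * Polynomial.X ^ 2 +
      Polynomial.C (c * (a * b + a * r + b * r)) * Polynomial.X + Polynomial.C (-c * (a * b * r)) := by
    rw [hs]; simp [rootsProd]; ring
  rw [this]
  simp only [Polynomial.coeff_add, Polynomial.coeff_C_mul, Polynomial.coeff_X_pow, Polynomial.coeff_X,
    Polynomial.coeff_C]
  norm_num
  nlinarith [sq_nonneg (c * a * b), sq_nonneg (c * a * r), sq_nonneg (c * b * r)]

/-- A homogeneous cubic along itself. -/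
theorem lc_one_self {p : MvPolynomial (Fin n) ℝ} (h : p.IsHomogeneous 3) (x : Fin n → ℝ) :
    lc p 1 x x = 3 * eval x p := by
  have key : ∀ s : ℝ, (1 + s) ^ 3 * eval x p = ∑ k ∈ range 4, lc p k x x * s ^ k := fun s => by
    rw [← eval_eq_sum_lc h.totalDegree_le, ← eval_smul h, add_smul, one_smul]
  have h1 := key 1
  have h2 := key (-1)
  have h3 := key 2
  simp [sum_range_succ] at h1 h2 h3
  have h0 : lc p 0 x x = eval x p := lc_zero _ _ _
  linarith

variable {p : MvPolynomial (Fin n) ℝ} {e v : Fin n → ℝ}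

variable (p v) in
/-- The polar form of `p` at `v`. -/
noncomputable def Hb : (Fin n → ℝ) →ₗ[ℝ] (Fin n → ℝ) →ₗ[ℝ] ℝ :=
  LinearMap.mk₂ ℝ (fun x y => (∑ i, ∑ j, (x i * y j + y i * x j) * hess p v i j) / 4)
    (fun x x' y => by
      simp only [Pi.add_apply, add_mul, mul_add, sum_add_distrib]; ring)
    (fun c x y => by
      simp only [Pi.smul_apply, smul_eq_mul, ← mul_div_assoc, mul_sum]
      congr 1; exact sum_congr rfl fun i _ => sum_congr rfl fun j _ => by ring)
    (fun x y y' => by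
      simp only [Pi.add_apply, add_mul, mul_add, sum_add_distrib]; ring)
    (fun c x y => by
      simp only [Pi.smul_apply, smul_eq_mul, ← mul_div_assoc, mul_sum]
      congr 1; exact sum_congr rfl fun i _ => sum_congr rfl fun j _ => by ring)

theorem Hb_self (x : Fin n → ℝ) : Hb p v x x = lc p 2 v x := by
  have h := lc_two p v x
  have e1 : ∑ i, ∑ j, (x i * x j + x i * x j) * hess p v i j =
      2 * ∑ i, ∑ j, x i * x j * hess p v i j := by
    rw [mul_sum]; exact sum_congr rfl fun i _ => by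
      rw [mul_sum]; exact sum_congr rfl fun j _ => by ring
  simp only [Hb, LinearMap.mk₂_apply, e1, ← h]
  ring

theorem Hb_symm (x y : Fin n → ℝ) : Hb p v x y = Hb p v y x := by
  simp [Hb, LinearMap.mk₂_apply, add_comm]

theorem Hb_add_sq (x y : Fin n → ℝ) (s : ℝ) :
    Hb p v (x + s • y) (x + s • y) =
      Hb p v x x + 2 * s * Hb p v x y + s ^ 2 * Hb p v y y := by
  simp only [map_add, map_smul, LinearMap.add_apply, LinearMap.smul_apply, smul_eq_mul,
    Hb_symm (p := p) (v := v) y x]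
  ring

variable (S : Sing3 p e v)
include S

theorem Sing3.eval_add_v (x : Fin n → ℝ) (s : ℝ) :
    eval (x + s • v) p = eval x p + s * Hb p v x x := by
  have hd := S.hb.hom
  rw [eval_eq_sum_lc hd.totalDegree_le]
  simp only [sum_range_succ, sum_range_zero, zero_add, pow_zero, mul_one, pow_one, lc_zero]
  have r1 : lc p 1 x v = lc p 2 v x := lc_reflect hd (by norm_num) x v
  have r2 : lc p 2 x v = lc p 1 v x := lc_reflect hd (by norm_num) x v
  have r3 : lc p 1 v x = 0 := by simp [lc_one, S.grad0]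
  rw [r1, r2, r3, lc_top hd, S.val, Hb_self]
  ring

theorem Sing3.Hb_v (x : Fin n → ℝ) : Hb p v x v = 0 := by
  have key : ∀ s t : ℝ, eval x p + (s + t) * Hb p v x x =
      eval x p + s * Hb p v x x + t * Hb p v (x + s • v) (x + s • v) := fun s t => by
    rw [← S.eval_add_v, ← S.eval_add_v, ← S.eval_add_v, add_assoc, add_smul]
  have h1 := key 1 1
  have h2 := key (-1) 1
  rw [Hb_add_sq] at h1 h2
  linarith

theorem Sing3.lc_add_v (x : Fin n → ℝ) (M : ℝ) (k : ℕ) :
    lc p k (x + M • v) e = (line p x e + Polynomial.C M * (Polynomial.C (Hb p v x x) +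
      Polynomial.C (2 * Hb p v x e) * Polynomial.X +
      Polynomial.C (Hb p v e e) * Polynomial.X ^ 2)).coeff k := by
  rw [lc]
  congr 1
  refine Polynomial.funext fun s => ?_
  rw [eval_line, Polynomial.eval_add, eval_line,
    show x + M • v + s • e = x + s • e + M • v by abel, S.eval_add_v, Hb_add_sq]
  simp only [Polynomial.eval_add, Polynomial.eval_mul, Polynomial.eval_C, Polynomial.eval_X,
    Polynomial.eval_pow]
  ring

theorem Sing3.q_cone {x : Fin n → ℝ} (hx : x ∈ cone p e) : 0 ≤ Hb p v x x := by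
  rw [Hb_self]; exact S.hb.lc_nonneg hx S.mem 2

theorem Sing3.q_inner {x : Fin n → ℝ} (hx : x ∈ inner p 3 e) : 0 < Hb p v x x := by
  rcases (S.q_cone (S.hb.inner_subset hx)).eq_or_lt with h0 | h
  swap
  · exact h
  exfalso
  obtain ⟨u, hu⟩ := S.neg
  rw [← Hb_self] at hu
  have hev : ∀ᶠ δ : ℝ in nhds 0, x + δ • u ∈ inner p 3 e ∧ x - δ • u ∈ inner p 3 e :=
    (((by fun_prop : Continuous fun δ : ℝ => x + δ • u).tendsto' 0 x (by simp)).eventually
      ((isOpen_inner p 3 e).mem_nhds hx)).and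
    (((by fun_prop : Continuous fun δ : ℝ => x - δ • u).tendsto' 0 x (by simp)).eventually
      ((isOpen_inner p 3 e).mem_nhds hx))
  obtain ⟨δ, hδ, hpos⟩ := ((hev.filter_mono nhdsWithin_le_nhds).and
    (self_mem_nhdsWithin (a := (0 : ℝ)) (s := Set.Ioi 0))).exists
  have h1 := S.q_cone (S.hb.inner_subset hδ.1)
  have h2 := S.q_cone (S.hb.inner_subset hδ.2)
  rw [Hb_add_sq] at h1
  rw [sub_eq_add_neg, ← neg_smul, Hb_add_sq] at h2
  nlinarith [mul_pos (pow_pos (show (0:ℝ) < δ from hpos) 2) (neg_pos.2 hu)]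

theorem Sing3.lor : Lor (Hb p v) e := by
  refine ⟨Hb_symm, S.q_inner S.hb.e_inner, fun u hu => ?_⟩
  by_contra hpos
  push Not at hpos
  rw [Hb_symm] at hu
  set qu := Hb p v u u
  set qe := Hb p v e e
  have hqe : 0 < qe := S.q_inner S.hb.e_inner
  set c0 := lc p 0 u e
  set c1 := lc p 1 u e
  set c2 := lc p 2 u e
  have key : ∀ M : ℝ, 2 * ((c0 + M * qu) * (c2 + M * qe)) ≤ c1 ^ 2 := fun M => by
    have hdeg := S.hb.natDegree_eq S.hb.pos.ne' (u + M • v)
    have h := rr_cubic (S.hb.rr (u + M • v)) hdeg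
    have e0 := S.lc_add_v u M 0
    have e1 := S.lc_add_v u M 1
    have e2 := S.lc_add_v u M 2
    simp [Polynomial.coeff_C, Polynomial.coeff_X, Polynomial.coeff_X_pow, hu] at e0 e1 e2
    change 2 * (lc p 0 (u + M • v) e * lc p 2 (u + M • v) e) ≤ lc p 1 (u + M • v) e ^ 2 at h
    rw [e0, e1, e2] at h
    simpa [c0, c1, c2, lc] using h
  set K := c0 * qe + c2 * qu
  set M := (|K| + 2 * c1 ^ 2 + 2 * |c0 * c2| + 1) / (qu * qe) + 1 with hM
  have hP : 0 < qu * qe := mul_pos hpos hqe
  have hMP : M * (qu * qe) = |K| + 2 * c1 ^ 2 + 2 * |c0 * c2| + 1 + qu * qe := by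
    rw [hM]; field_simp
  have hM1 : 1 ≤ M := by
    rw [hM]; have : 0 ≤ (|K| + 2 * c1 ^ 2 + 2 * |c0 * c2| + 1) / (qu * qe) := by positivity
    linarith
  have h := key M
  have e : (c0 + M * qu) * (c2 + M * qe) = c0 * c2 + M * (M * (qu * qe) + K) := by
    simp only [K]; ring
  rw [e, hMP] at h
  have hX : 2 * c1 ^ 2 + 2 * |c0 * c2| + 1 ≤
      |K| + 2 * c1 ^ 2 + 2 * |c0 * c2| + 1 + qu * qe + K := by linarith [neg_abs_le K]
  have hMX := le_mul_of_one_le_left
    (le_trans (show (0 : ℝ) ≤ 2 * c1 ^ 2 + 2 * |c0 * c2| + 1 by positivity) hX) hM1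
  linarith [neg_abs_le (c0 * c2), sq_nonneg c1, abs_nonneg (c0 * c2)]

theorem Sing3.pos_inner {x : Fin n → ℝ} (hx : x ∈ inner p 3 e) : Pos (Hb p v) e x := by
  refine ⟨S.q_inner hx, ?_⟩
  have L := S.lor
  by_contra hle
  push Not at hle
  set θ := Hb p v e e / (Hb p v e e - Hb p v e x) with hθ
  have hd : 0 < Hb p v e e - Hb p v e x := by linarith [L.pos]
  have hθ0 : 0 < θ := div_pos L.pos hd
  have hθ1 : θ ≤ 1 := by rw [hθ, div_le_one hd]; linarith
  have hz : (θ • x + (1 - θ) • e) ∈ inner p 3 e :=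
    S.hb.inner_add (S.hb.inner_smul hx hθ0)
      (S.hb.cone_smul (S.hb.inner_subset S.hb.e_inner) (by linarith))
  have hperp : Hb p v e (θ • x + (1 - θ) • e) = 0 := by
    simp only [map_add, map_smul, smul_eq_mul, hθ]; field_simp; ring
  have := L.perp _ hperp
  linarith [S.q_inner hz]

end Vale.Agent.P256.Cubic
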